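import Vale.Agent.P110.Defs

/-! P110 module BUMP: the bump. -/

namespace Vale.Agent.P110

open Finset
open scoped Real

theorem BUMP_bdd {f : ℝ → ℝ} (hf : Continuous f) (hp : ∀ x, f (x + 2 * π) = f x) :
    ∃ Λ : ℝ, 0 < Λ ∧ ∀ x, |f x| ≤ Λ := by
  obtain ⟨t₀, _, h⟩ := isCompact_Icc.exists_isMaxOn (Set.nonempty_Icc.2 Real.two_pi_pos.le)
    hf.abs.continuousOn
  refine ⟨|f t₀| + 1, by positivity, fun x => ?_⟩
  have hper : Function.Periodic f (2 * π) := hp
  obtain ⟨y, hy, he⟩ := hper.exists_mem_Ico₀ Real.two_pi_pos x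
  rw [he]
  have h2 : |f y| ≤ |f t₀| := h (Set.Ico_subset_Icc_self hy)
  linarith

/-- (BUMP) `θ₀ = (s+t)/2`, `ℓ = min ((t-s)/2) 1`, `a = 2 - 2 cos ℓ`, `a' = a/2`,
`φ x = Real.smoothTransition ((a - v x) / (a - a'))`, `v x = 2 - 2 cos (x - θ₀)`. -/
theorem exists_bump (s t : ℝ) (hst : s < t) :
    ∃ (θ₀ a' Λ : ℝ) (φ φ' : ℝ → ℝ), 0 < a' ∧ a' < 4 ∧ 0 < Λ ∧ (∀ x, HasDerivAt φ (φ' x) x) ∧
      Continuous φ' ∧ (∀ x, |φ' x| ≤ Λ) ∧ (∀ x, φ (x + 2 * π) = φ x) ∧
      (∀ x, 0 ≤ φ x ∧ φ x ≤ 1) ∧ (∀ x, 2 - 2 * Real.cos (x - θ₀) ≤ a' → φ x = 1) ∧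
      ∀ x, φ x ≠ 0 → ∃ m : ℤ, x + 2 * π * m ∈ Set.Ioo s t := by
  obtain ⟨ℓ, hℓ⟩ : ∃ ℓ : ℝ, ℓ = min ((t - s) / 2) 1 := ⟨_, rfl⟩
  have hℓ0 : 0 < ℓ := by rw [hℓ]; exact lt_min (by linarith) one_pos
  have hℓ1 : ℓ ≤ 1 := by rw [hℓ]; exact min_le_right _ _
  have hℓ2 : ℓ ≤ (t - s) / 2 := by rw [hℓ]; exact min_le_left _ _
  have hpi := Real.pi_gt_three
  have hcos : Real.cos ℓ < 1 := by
    have := Real.cos_lt_cos_of_nonneg_of_le_pi (le_refl (0 : ℝ)) (by linarith : ℓ ≤ π) hℓ0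
    rwa [Real.cos_zero] at this
  have hcos' := Real.neg_one_le_cos ℓ
  obtain ⟨a, ha⟩ : ∃ a : ℝ, a = 2 - 2 * Real.cos ℓ := ⟨_, rfl⟩
  have ha0 : 0 < a := by rw [ha]; linarith
  have ha4 : a ≤ 4 := by rw [ha]; linarith
  let φ : ℝ → ℝ := fun x =>
    Real.smoothTransition ((a - (2 - 2 * Real.cos (x - (s + t) / 2))) / (a - a / 2))
  have hφ : ContDiff ℝ 2 φ := by
    refine Real.smoothTransition.contDiff.comp ?_
    refine ContDiff.div_const ?_ _
    exact contDiff_const.sub (contDiff_const.sub (contDiff_const.mul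
      (Real.contDiff_cos.comp (contDiff_id.sub contDiff_const))))
  have hper : ∀ x, φ (x + 2 * π) = φ x := by
    intro x
    show Real.smoothTransition ((a - (2 - 2 * Real.cos (x + 2 * π - (s + t) / 2))) / (a - a / 2)) =
      Real.smoothTransition ((a - (2 - 2 * Real.cos (x - (s + t) / 2))) / (a - a / 2))
    have : x + 2 * π - (s + t) / 2 = x - (s + t) / 2 + 2 * π := by ring
    rw [this, Real.cos_add_two_pi]
  have hper' : ∀ x, deriv φ (x + 2 * π) = deriv φ x := by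
    intro x
    rw [← deriv_comp_add_const]
    congr 1
    funext y
    exact hper y
  have hcont : Continuous (deriv φ) := hφ.continuous_deriv (by norm_num)
  obtain ⟨Λ, hΛ, hb⟩ := BUMP_bdd hcont hper'
  refine ⟨(s + t) / 2, a / 2, Λ, φ, deriv φ, by linarith, by linarith, hΛ, ?_, hcont, hb, hper,
    ?_, ?_, ?_⟩
  · intro x
    exact ((hφ.differentiable (by norm_num)) x).hasDerivAt
  · intro x
    exact ⟨Real.smoothTransition.nonneg _, Real.smoothTransition.le_one _⟩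
  · intro x hx
    refine Real.smoothTransition.one_of_one_le ?_
    rw [le_div_iff₀ (by linarith)]
    linarith
  · intro x hx
    have h1 : 0 < (a - (2 - 2 * Real.cos (x - (s + t) / 2))) / (a - a / 2) := by
      by_contra h
      exact hx (Real.smoothTransition.zero_of_nonpos (not_lt.1 h))
    have h2 : 0 < a - (2 - 2 * Real.cos (x - (s + t) / 2)) := by
      by_contra h
      exact absurd h1 (not_lt.2 (div_nonpos_of_nonpos_of_nonneg (not_lt.1 h) (by linarith)))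
    have h3 : Real.cos ℓ < Real.cos (x - (s + t) / 2) := by
      rw [ha] at h2
      linarith
    obtain ⟨m, hm⟩ : ∃ m : ℤ, m = -round ((x - (s + t) / 2) / (2 * π)) := ⟨_, rfl⟩
    obtain ⟨y, hy⟩ : ∃ y : ℝ, y = x - (s + t) / 2 + m * (2 * π) := ⟨_, rfl⟩
    have h4 : Real.cos ℓ < Real.cos y := by
      rw [hy, Real.cos_add_int_mul_two_pi]
      exact h3
    have h5 : |y| ≤ π := by
      have h6 := abs_sub_round ((x - (s + t) / 2) / (2 * π))
      have h7 : y = 2 * π * ((x - (s + t) / 2) / (2 * π) -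
          (round ((x - (s + t) / 2) / (2 * π)) : ℝ)) := by
        rw [hy, hm]
        push_cast
        field_simp
        ring
      rw [h7, abs_mul, abs_of_pos Real.two_pi_pos]
      calc 2 * π * |(x - (s + t) / 2) / (2 * π) - (round ((x - (s + t) / 2) / (2 * π)) : ℝ)|
          ≤ 2 * π * (1 / 2) := mul_le_mul_of_nonneg_left h6 Real.two_pi_pos.le
        _ = π := by ring
    have h8 : |y| < ℓ := by
      by_contra h
      have h9 := Real.cos_le_cos_of_nonneg_of_le_pi hℓ0.le h5 (not_lt.1 h)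
      rw [Real.cos_abs] at h9
      linarith
    rw [abs_lt] at h8
    refine ⟨m, ?_, ?_⟩
    · have : x + 2 * π * m = y + (s + t) / 2 := by rw [hy]; ring
      rw [this]
      linarith [h8.1]
    · have : x + 2 * π * m = y + (s + t) / 2 := by rw [hy]; ring
      rw [this]
      linarith [h8.2]

end Vale.Agent.P110
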