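import Vale.Agent.P110.Defs

/-! P110 module CNT: few positions where the word is `q`-periodic for `J` steps. -/

namespace Vale.Agent.P110

open Finset

theorem cnt_shift {N : ℕ} {a : ℤ → ℝ} (hs : ∀ k : ℤ, k < 0 ∨ (N : ℤ) ≤ k → a k = 0) (q J : ℕ)
    (j j' : ℕ) (hj : j < J) :
    ∑ k ∈ Ico (-((J : ℤ) * q)) N, a (k + j * q) * a (k + j' * q) =
      ∑ m ∈ Ico (0 : ℤ) N, a m * a (m + ((j' : ℤ) - j) * q) := by
  have e1 : ∀ k : ℤ, a (k + j * q) * a (k + j' * q) =
      (fun m : ℤ => a m * a (m + ((j' : ℤ) - j) * q)) (k + j * q) := fun k => by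
    have : k + j * q + ((j' : ℤ) - j) * q = k + j' * q := by ring
    simp only [this]
  rw [Finset.sum_congr rfl fun k _ => e1 k,
    Finset.sum_Ico_add' (fun m : ℤ => a m * a (m + ((j' : ℤ) - j) * q)) _ _ ((j : ℤ) * q)]
  symm
  have hjq : (0 : ℤ) ≤ (j : ℤ) * q := by positivity
  have hJq : (j : ℤ) * q ≤ (J : ℤ) * q :=
    mul_le_mul_of_nonneg_right (by exact_mod_cast hj.le) (by positivity)
  refine Finset.sum_subset ?_ ?_
  · intro m hm
    rw [mem_Ico] at hm ⊢
    constructor <;> linarith [hm.1, hm.2]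
  · intro m _ hm'
    rw [mem_Ico, not_and_or, not_le, not_lt] at hm'
    rw [hs m hm', zero_mul]

/-- (CNT) With `S k = ∑_{j<J} a (k + j q)`, `∑_{k ∈ ℤ} (S k)^2 = ∑_{j,j'} C_{(j'-j) q}`,
`C_h = ∑_k a_k a_{k+h}`, `C_0 = N`; so it is `≤ J N + J^2 D`; every `k` of the filter has
`(S k)^2 = J^2`.  (Sum over `k ∈ Ico (-(J q)) N`, outside of it `S k = 0`.) -/
theorem count_periodic {N : ℕ} {a : ℤ → ℝ} (hpm : ∀ k : ℤ, 0 ≤ k → k < N → a k = 1 ∨ a k = -1)
    (hs : ∀ k : ℤ, k < 0 ∨ (N : ℤ) ≤ k → a k = 0) {D : ℝ}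
    (hD : ∀ h : ℤ, h ≠ 0 → |∑ k ∈ Ico (0 : ℤ) N, a k * a (k + h)| ≤ D) (q J : ℕ) (hq : 1 ≤ q)
    (hJ : 1 ≤ J) :
    (((Ico (0 : ℤ) N).filter (fun k => ∀ j : ℕ, j < J → a (k + j * q) = a k)).card : ℝ)
      ≤ N / J + D := by
  have hD0 : 0 ≤ D := (abs_nonneg _).trans (hD 1 one_ne_zero)
  have hJ0 : (0 : ℝ) < J := by exact_mod_cast hJ
  set F := (Ico (0 : ℤ) N).filter (fun k => ∀ j : ℕ, j < J → a (k + j * q) = a k) with hF
  set W := Ico (-((J : ℤ) * q)) N with hW
  have hsq : ∀ k : ℤ, (∑ j ∈ range J, a (k + j * q)) ^ 2 =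
      ∑ j ∈ range J, ∑ j' ∈ range J, a (k + j * q) * a (k + j' * q) := fun k => by
    rw [sq, Finset.sum_mul_sum]
  -- upper bound
  have hup : ∑ k ∈ W, (∑ j ∈ range J, a (k + j * q)) ^ 2 ≤ J * N + (J : ℝ) ^ 2 * D := by
    rw [Finset.sum_congr rfl fun k _ => hsq k, Finset.sum_comm]
    have hrow : ∀ j ∈ range J, ∑ k ∈ W, ∑ j' ∈ range J, a (k + j * q) * a (k + j' * q) ≤
        N + J * D := by
      intro j hj
      rw [Finset.sum_comm]
      have hterm : ∀ j' ∈ range J, ∑ k ∈ W, a (k + j * q) * a (k + j' * q) ≤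
          (if j' = j then (N : ℝ) else 0) + D := by
        intro j' _
        rw [cnt_shift hs q J j j' (mem_range.1 hj)]
        by_cases h : j' = j
        · subst h
          rw [if_pos rfl]
          have e : ∀ m ∈ Ico (0 : ℤ) N, a m * a (m + ((j' : ℤ) - j') * q) = 1 := by
            intro m hm
            rw [mem_Ico] at hm
            rw [sub_self, zero_mul, add_zero]
            rcases hpm m hm.1 hm.2 with h | h <;> rw [h] <;> norm_num
          rw [Finset.sum_congr rfl e, Finset.sum_const, Int.card_Ico, sub_zero, Int.toNat_natCast,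
            nsmul_eq_mul, mul_one]
          linarith
        · rw [if_neg h, zero_add]
          refine (le_abs_self _).trans (hD _ ?_)
          refine mul_ne_zero ?_ ?_
          · rw [sub_ne_zero]
            exact_mod_cast h
          · have : q ≠ 0 := by omega
            exact_mod_cast this
      refine (Finset.sum_le_sum hterm).trans ?_
      rw [Finset.sum_add_distrib, Finset.sum_ite_eq' , if_pos hj, Finset.sum_const, card_range,
        nsmul_eq_mul]
    refine (Finset.sum_le_sum hrow).trans ?_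
    rw [Finset.sum_const, card_range, nsmul_eq_mul]
    nlinarith
  -- lower bound
  have hFW : F ⊆ W := by
    intro k hk
    rw [hF, mem_filter, mem_Ico] at hk
    rw [hW, mem_Ico]
    have : (0 : ℤ) ≤ (J : ℤ) * q := by positivity
    constructor <;> linarith [hk.1.1, hk.1.2]
  have hlow : (F.card : ℝ) * (J : ℝ) ^ 2 ≤ ∑ k ∈ W, (∑ j ∈ range J, a (k + j * q)) ^ 2 := by
    rw [← nsmul_eq_mul, ← Finset.sum_const]
    refine (Finset.sum_le_sum fun k hk => ?_).trans
      (Finset.sum_le_sum_of_subset_of_nonneg hFW fun k _ _ => sq_nonneg _)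
    rw [hF, mem_filter, mem_Ico] at hk
    have e : ∑ j ∈ range J, a (k + j * q) = J * a k := by
      rw [Finset.sum_congr rfl fun j hj => hk.2 j (mem_range.1 hj), Finset.sum_const, card_range,
        nsmul_eq_mul]
    rw [e]
    rcases hpm k hk.1.1 hk.1.2 with h | h <;> rw [h] <;> exact le_of_eq (by ring)
  have h := hlow.trans hup
  have e2 : (N : ℝ) / J + D = (J * N + (J : ℝ) ^ 2 * D) / (J : ℝ) ^ 2 := by
    field_simp
  rw [e2, le_div_iff₀ (by positivity)]
  exact h

end Vale.Agent.P110
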