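import Vale.Agent.P110.Defs

/-! P110 module CORR: flat polynomials have small autocorrelations. -/

namespace Vale.Agent.P110

open Finset Complex
open scoped Real

private theorem corr_int (m : ℤ) :
    ∫ x in (0 : ℝ)..(2 * π), exp (I * m * x) = if m = 0 then 2 * (π : ℂ) else 0 := by
  split_ifs with h
  · subst h
    simp
  · have hc : (I * m : ℂ) ≠ 0 := mul_ne_zero I_ne_zero (by exact_mod_cast h)
    rw [integral_exp_mul_complex hc]
    have h1 : exp (I * m * ((2 * π : ℝ) : ℂ)) = 1 := by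
      have h2 := Complex.exp_int_mul_two_pi_mul_I m
      rw [← h2]
      congr 1
      push_cast
      ring
    rw [h1]
    simp

private theorem corr_exp (N : ℕ) (a : ℤ → ℝ) (h : ℤ) (x : ℝ) :
    ((‖PP N (ac a) x‖ ^ 2 : ℝ) : ℂ) * exp (I * h * x) =
      ∑ k ∈ range N, ∑ l ∈ range N, ((a k * a l : ℝ) : ℂ) *
        exp (I * (((k : ℤ) - (l : ℤ) + h : ℤ) : ℂ) * x) := by
  rw [← Complex.normSq_eq_norm_sq, Complex.normSq_eq_conj_mul_self]
  unfold PP
  rw [map_sum, Finset.sum_mul_sum, Finset.sum_comm, Finset.sum_mul]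
  refine sum_congr rfl fun k _ => ?_
  rw [Finset.sum_mul]
  refine sum_congr rfl fun l _ => ?_
  have h1 : (starRingEnd ℂ) (ac a l * exp (I * l * x)) = ac a l * exp (-(I * l * x)) := by
    rw [map_mul, ← Complex.exp_conj]
    congr 1
    · exact Complex.conj_ofReal _
    · congr 1
      simp
  rw [h1]
  have h2 : exp (I * (((k : ℤ) - (l : ℤ) + h : ℤ) : ℂ) * x)
      = exp (-(I * l * x)) * exp (I * k * x) * exp (I * h * x) := by
    rw [← Complex.exp_add, ← Complex.exp_add]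
    congr 1
    push_cast
    ring
  rw [h2]
  unfold ac
  push_cast
  ring

/-- (CORR) `∑_k a_k a_{k+h} = (1/2π) ∫ (|P|^2 - N) e^{± i h x} dx` for `h ≠ 0`. -/
theorem corr_le {N : ℕ} {a : ℤ → ℝ} (hs : ∀ k : ℤ, k < 0 ∨ (N : ℤ) ≤ k → a k = 0) {D : ℝ}
    (hD : ∀ x : ℝ, |‖PP N (ac a) x‖ ^ 2 - N| ≤ D) (h : ℤ) (hh : h ≠ 0) :
    |∑ k ∈ Ico (0 : ℤ) N, a k * a (k + h)| ≤ D := by
  have hint : ∀ m : ℤ, ∀ c : ℂ, IntervalIntegrable (fun x : ℝ => c * exp (I * m * x))
      MeasureTheory.volume 0 (2 * π) := fun m c =>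
    (Continuous.intervalIntegrable (by fun_prop) _ _)
  have hI : ∫ x in (0 : ℝ)..(2 * π), (((‖PP N (ac a) x‖ ^ 2 - N : ℝ)) : ℂ) * exp (I * h * x)
      = 2 * π * ((∑ k ∈ Ico (0 : ℤ) N, a k * a (k + h) : ℝ) : ℂ) := by
    have e1 : ∀ x : ℝ, (((‖PP N (ac a) x‖ ^ 2 - N : ℝ)) : ℂ) * exp (I * h * x)
        = (∑ k ∈ range N, ∑ l ∈ range N, ((a k * a l : ℝ) : ℂ) *
        exp (I * (((k : ℤ) - (l : ℤ) + h : ℤ) : ℂ) * x)) - (N : ℂ) * exp (I * h * x) := by
      intro x
      rw [← corr_exp]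
      push_cast
      ring
    simp_rw [e1]
    have i1 : ∀ k : ℕ, IntervalIntegrable (fun x : ℝ => ∑ l ∈ range N, ((a k * a l : ℝ) : ℂ) *
        exp (I * (((k : ℤ) - (l : ℤ) + h : ℤ) : ℂ) * x)) MeasureTheory.volume 0 (2 * π) :=
      fun k => (Continuous.intervalIntegrable (by fun_prop) _ _)
    have i2 : IntervalIntegrable (fun x : ℝ => ∑ k ∈ range N, ∑ l ∈ range N,
        ((a k * a l : ℝ) : ℂ) * exp (I * (((k : ℤ) - (l : ℤ) + h : ℤ) : ℂ) * x))
        MeasureTheory.volume 0 (2 * π) :=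
      (Continuous.intervalIntegrable (by fun_prop) _ _)
    rw [intervalIntegral.integral_sub i2 (hint _ _), intervalIntegral.integral_finsetSum
      (fun k _ => i1 k)]
    have e2 : ∀ k ∈ range N, (∫ x in (0 : ℝ)..(2 * π), ∑ l ∈ range N, ((a k * a l : ℝ) : ℂ) *
        exp (I * (((k : ℤ) - (l : ℤ) + h : ℤ) : ℂ) * x))
        = 2 * π * ((a k * a (k + h) : ℝ) : ℂ) := by
      intro k _
      rw [intervalIntegral.integral_finsetSum (fun l _ => hint _ _)]
      have e3 : ∀ l ∈ range N, (∫ x in (0 : ℝ)..(2 * π), ((a k * a l : ℝ) : ℂ) *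
          exp (I * (((k : ℤ) - (l : ℤ) + h : ℤ) : ℂ) * x))
          = if (l : ℤ) = k + h then 2 * π * ((a k * a (k + h) : ℝ) : ℂ) else 0 := by
        intro l _
        rw [intervalIntegral.integral_const_mul, corr_int]
        by_cases hl : (l : ℤ) = k + h
        · rw [if_pos (by omega), if_pos hl, hl]
          ring
        · rw [if_neg (by omega), if_neg hl, mul_zero]
      rw [sum_congr rfl e3]
      by_cases hk : 0 ≤ (k : ℤ) + h ∧ (k : ℤ) + h < N
      · have hl : ((((k : ℤ) + h).toNat : ℕ) : ℤ) = (k : ℤ) + h := Int.toNat_of_nonneg hk.1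
        rw [sum_eq_single ((k : ℤ) + h).toNat]
        · rw [if_pos hl]
        · intro l _ hne
          rw [if_neg]
          intro hl'
          apply hne
          omega
        · intro hn
          exact absurd (mem_range.2 (by omega)) hn
      · have h0 : a ((k : ℤ) + h) = 0 := hs _ (by omega)
        rw [h0]
        simp
    rw [sum_congr rfl e2, intervalIntegral.integral_const_mul, corr_int, if_neg hh, mul_zero,
      sub_zero, ← mul_sum]
    congr 1
    push_cast
    refine sum_nbij' (fun k : ℕ => (k : ℤ)) (fun k : ℤ => k.toNat) ?_ ?_ ?_ ?_ ?_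
    · intro k hk
      rw [mem_range] at hk
      rw [mem_Ico]
      omega
    · intro k hk
      rw [mem_Ico] at hk
      rw [mem_range]
      omega
    · intro k _
      simp
    · intro k hk
      rw [mem_Ico] at hk
      exact Int.toNat_of_nonneg hk.1
    · intro k _
      rfl
  have hle : ‖∫ x in (0 : ℝ)..(2 * π), (((‖PP N (ac a) x‖ ^ 2 - N : ℝ)) : ℂ) * exp (I * h * x)‖
      ≤ D * |2 * π - 0| := by
    refine intervalIntegral.norm_integral_le_of_norm_le_const fun x _ => ?_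
    rw [norm_mul, Complex.norm_real, Real.norm_eq_abs]
    have h1 : ‖exp (I * h * x)‖ = 1 := by
      have : I * h * x = ((h * x : ℝ) : ℂ) * I := by push_cast; ring
      rw [this, Complex.norm_exp_ofReal_mul_I]
    rw [h1, mul_one]
    exact hD x
  rw [hI, norm_mul, norm_mul, Complex.norm_real, Complex.norm_real, sub_zero] at hle
  have hpi : 0 < 2 * π := by positivity
  rw [abs_of_pos hpi, Real.norm_eq_abs, Real.norm_eq_abs, abs_of_pos Real.pi_pos] at hle
  have h2 : ‖(2 : ℂ)‖ = 2 := by simp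
  rw [h2] at hle
  have h3 : 2 * π * |∑ k ∈ Ico (0 : ℤ) N, a k * a (k + h)| ≤ 2 * π * D := by linarith
  exact le_of_mul_le_mul_left h3 hpi

end Vale.Agent.P110
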