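import Mathlib

/-!
# P110: ultraflat real Littlewood polynomials; definitions (helper68)

Plan.  Let `P(x) = ∑_{k<N} a_k e^{ikx}`, `a_k = ±1`, `|P|^2 = N (1 + O(δ))`, and let
`b(x) = Re (P'(x) / (i P(x))) / N` be the normalised angular speed.  Claim: on every arc `(s,t)` the
values of `b` come close to every point of `[0,1]`.  Steps: (1) `P(x + s/N) ≈ e^{i s b(x)} P(x)`
(zero-free strip, Borel-Caratheodory); (2) hence if `b` avoids `(c-r, c+r)` on the arc, the Fourier
coefficients of `φ P` (`φ` a bump on the arc) at the positions `|k/N - c| ≤ r/2` are negligible;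
(3) there is a fixed polynomial `Q`, `Q(0) = 1`, tiny (in Wiener norm) off the arc, so that at these
positions `∑ Q_j a_{k-j}` is small: `a_k` is a function of the previous `M` values; (4) hence the
word is periodic there with a fixed period, which contradicts `∑_k a_k a_{k+h} = O(δ N)`, `h ≠ 0`.
-/

namespace Vale.Agent.P110

open Finset Complex
open scoped Real

noncomputable section

/-- `∑_{k<N} a_k e^{ikw}`. -/
def PP (N : ℕ) (a : ℕ → ℂ) (w : ℂ) : ℂ := ∑ k ∈ range N, a k * exp (I * k * w)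

/-- the normalised angular speed `Re (P'(x) / (i P(x))) / N` at the real point `x`. -/
def bs (N : ℕ) (a : ℕ → ℂ) (x : ℝ) : ℝ :=
  ((∑ k ∈ range N, (k : ℂ) * a k * exp (I * k * x)) / PP N a x).re / N

/-- Fourier coefficients of a `2π`-periodic function. -/
def fc (f : ℝ → ℂ) (h : ℤ) : ℂ :=
  (1 / (2 * (π : ℂ))) * ∫ x in (0 : ℝ)..(2 * π), f x * exp (-(I * h * x))

/-- Fourier coefficients of `φ P`. -/
def gh (φ : ℝ → ℝ) (N : ℕ) (a : ℤ → ℝ) (k : ℤ) : ℂ :=
  ∑ l ∈ Ico (0 : ℤ) N, (a l : ℂ) * fc (fun x => (φ x : ℂ)) (k - l)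

/-- the coefficients as complex numbers. -/
def ac (a : ℤ → ℝ) (k : ℕ) : ℂ := (a (k : ℤ) : ℂ)

/-- the rule of prediction. -/
def ruleQ (M : ℕ) (Q : ℕ → ℂ) (y : Fin M → ℝ) : ℝ :=
  if (∑ j : Fin M, Q (j + 1) * (y j : ℂ)).re < 0 then 1 else -1

end

end Vale.Agent.P110
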