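import Vale.Agent.P110.Defs

/-! P110 modules LOGT, EXPA: local exponential form of a zero-free function. -/

namespace Vale.Agent.P110

open Finset Complex Metric
open scoped Real

/-- (LOGT) `Complex.borelCaratheodory_zero`: `‖f w‖ ≤ 2 M ‖w‖ / (R - ‖w‖)`.  For the function
`F = dslope f 0` (analytic, `F w = f w / w`, `F 0 = deriv f 0`) this gives `‖F‖ ≤ 2 M / (R - ‖w‖)`
(at `0` by continuity), so `‖F‖ ≤ 4 M / R` on `ball 0 (R/2)`, and the Schwarz lemma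
(`Complex.dist_le_div_mul_dist_of_mapsTo_ball`) gives `‖F w - F 0‖ ≤ 16 M ‖w‖ / R^2`. -/
theorem log_taylor {R M : ℝ} (hR : 0 < R) (hM : 0 < M) {f : ℂ → ℂ}
    (hf : DifferentiableOn ℂ f (ball 0 R)) (h0 : f 0 = 0) (hre : ∀ w ∈ ball (0 : ℂ) R, (f w).re ≤ M) :
    ‖deriv f 0‖ ≤ 2 * M / R ∧
      ∀ w : ℂ, ‖w‖ < R / 2 → ‖f w - deriv f 0 * w‖ ≤ 16 * M * ‖w‖ ^ 2 / R ^ 2 := by
  have hb0 : ball (0 : ℂ) R ∈ nhds (0 : ℂ) := ball_mem_nhds _ hR
  have hFd : DifferentiableOn ℂ (dslope f 0) (ball 0 R) :=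
    (Complex.differentiableOn_dslope hb0).2 hf
  have hFne : ∀ w : ℂ, w ≠ 0 → dslope f 0 w * w = f w := by
    intro w hw
    rw [dslope_of_ne _ hw, slope_def_field, h0]
    field_simp
    ring
  have hb : ∀ w ∈ ball (0 : ℂ) R, w ≠ 0 → ‖dslope f 0 w‖ ≤ 2 * M / (R - ‖w‖) := by
    intro w hw hw0
    have hwR : ‖w‖ < R := by simpa using hw
    have h1 := Complex.borelCaratheodory_zero hM hf (fun x hx => hre x hx) hR hw h0
    rw [← hFne w hw0, norm_mul] at h1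
    have hwp : 0 < ‖w‖ := norm_pos_iff.2 hw0
    have h2 : ‖dslope f 0 w‖ * ‖w‖ ≤ 2 * M / (R - ‖w‖) * ‖w‖ := by
      calc ‖dslope f 0 w‖ * ‖w‖ ≤ 2 * M * ‖w‖ / (R - ‖w‖) := h1
        _ = 2 * M / (R - ‖w‖) * ‖w‖ := by ring
    exact le_of_mul_le_mul_right h2 hwp
  have hF0 : dslope f 0 0 = deriv f 0 := dslope_same f 0
  have hd0 : ‖deriv f 0‖ ≤ 2 * M / R := by
    rw [← hF0]
    have hc : ContinuousAt (dslope f 0) 0 := hFd.continuousOn.continuousAt hb0
    have t1 : Filter.Tendsto (fun w : ℂ => ‖dslope f 0 w‖) (nhdsWithin 0 {0}ᶜ)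
        (nhds ‖dslope f 0 0‖) := (hc.norm.tendsto).mono_left nhdsWithin_le_nhds
    have t2 : Filter.Tendsto (fun w : ℂ => 2 * M / (R - ‖w‖)) (nhdsWithin 0 {0}ᶜ)
        (nhds (2 * M / R)) := by
      have hc2 : ContinuousAt (fun w : ℂ => 2 * M / (R - ‖w‖)) 0 := by
        refine ContinuousAt.div continuousAt_const (by fun_prop) ?_
        simpa using hR.ne'
      have h3 := hc2.tendsto.mono_left (nhdsWithin_le_nhds (s := ({0}ᶜ : Set ℂ)))
      simpa using h3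
    refine le_of_tendsto_of_tendsto t1 t2 ?_
    have h4 : ∀ᶠ w in nhdsWithin (0 : ℂ) {0}ᶜ, w ∈ ball (0 : ℂ) R :=
      mem_nhdsWithin_of_mem_nhds hb0
    filter_upwards [h4, self_mem_nhdsWithin] with w hw hw0
    exact hb w hw hw0
  refine ⟨hd0, ?_⟩
  intro w hw
  have hhalf : 0 < R / 2 := by positivity
  have hmaps : Set.MapsTo (dslope f 0) (ball 0 (R / 2)) (closedBall (dslope f 0 0) (6 * M / R)) := by
    intro x hx
    have hxR : ‖x‖ < R / 2 := by simpa using hx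
    rw [mem_closedBall, dist_eq_norm]
    by_cases hx0 : x = 0
    · rw [hx0, sub_self, norm_zero]
      positivity
    · have h5 := hb x (by simpa using (by linarith : ‖x‖ < R)) hx0
      have h6 : 2 * M / (R - ‖x‖) ≤ 4 * M / R := by
        rw [div_le_div_iff₀ (by linarith) hR]
        nlinarith
      calc ‖dslope f 0 x - dslope f 0 0‖ ≤ ‖dslope f 0 x‖ + ‖dslope f 0 0‖ := norm_sub_le _ _
        _ ≤ 4 * M / R + 2 * M / R := by
          rw [hF0]
          exact add_le_add (h5.trans h6) hd0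
        _ = 6 * M / R := by ring
  have hsub : ball (0 : ℂ) (R / 2) ⊆ ball 0 R := ball_subset_ball (by linarith)
  have h7 := Complex.dist_le_div_mul_dist_of_mapsTo_ball (hFd.mono hsub) hmaps
    (z := w) (by simpa using hw)
  rw [dist_eq_norm, dist_zero_right] at h7
  have h8 : f w - deriv f 0 * w = (dslope f 0 w - dslope f 0 0) * w := by
    by_cases hw0 : w = 0
    · rw [hw0, h0]; ring
    · rw [sub_mul, hFne w hw0, hF0]
  rw [h8, norm_mul]
  calc ‖dslope f 0 w - dslope f 0 0‖ * ‖w‖ ≤ 6 * M / R / (R / 2) * ‖w‖ * ‖w‖ := by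
        gcongr
    _ = 12 * M * ‖w‖ ^ 2 / R ^ 2 := by
        field_simp
        ring
    _ ≤ 16 * M * ‖w‖ ^ 2 / R ^ 2 := by
        gcongr
        norm_num

theorem expa_log {u δ : ℝ} (hδ : δ ≤ 1 / 2) (hu : |u - 1| ≤ δ) : |Real.log u| ≤ 2 * δ := by
  have h1 := abs_le.mp hu
  have hδ0 : 0 ≤ δ := le_trans (abs_nonneg _) hu
  have hu0 : 1 / 2 ≤ u := by linarith [h1.1]
  have hup : 0 < u := by linarith
  have h2 := Real.log_le_sub_one_of_pos hup
  have h3 := Real.one_sub_inv_le_log_of_pos hup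
  have h4 : -(2 * δ) ≤ 1 - u⁻¹ := by
    have h5 : 1 - u⁻¹ = (u - 1) / u := by field_simp
    rw [h5, le_div_iff₀ hup]
    nlinarith [h1.1]
  rw [abs_le]
  constructor
  · linarith
  · linarith [h1.2]

theorem expa_prim {R : ℝ} (hR : 0 < R) {h : ℂ → ℂ} (hh : Differentiable ℂ h)
    (hz : ∀ w ∈ ball (0 : ℂ) R, h w ≠ 0) :
    ∃ f : ℂ → ℂ, f 0 = 0 ∧ (∀ w ∈ ball (0 : ℂ) R, HasDerivAt f (deriv h w / h w) w) ∧
      ∀ w ∈ ball (0 : ℂ) R, h w = h 0 * exp (f w) := by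
  have hd : Differentiable ℂ (deriv h) := by
    have := hh.analyticAt
    intro z
    exact ((hh.analyticAt z).deriv).differentiableAt
  have hq : DifferentiableOn ℂ (fun w => deriv h w / h w) (ball 0 R) := by
    intro w hw
    exact ((hd w).div (hh w) (hz w hw)).differentiableWithinAt
  obtain ⟨f, hf0, hf⟩ := hq.isExactOn_ball.with_val_at 0 0
  refine ⟨f, hf0, hf, ?_⟩
  have hg : ∀ w ∈ ball (0 : ℂ) R, HasDerivAt (fun w => h w * exp (-f w)) 0 w := by
    intro w hw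
    have h1 := (hh w).hasDerivAt.mul ((hf w hw).neg.cexp)
    have h2 : deriv h w * exp (-f w) + h w * (exp (-f w) * -(deriv h w / h w)) = 0 := by
      have := hz w hw
      field_simp
      ring
    rw [← h2]
    exact h1
  intro w hw
  have h0 : (0 : ℂ) ∈ ball (0 : ℂ) R := mem_ball_self hR
  have hc := isOpen_ball.is_const_of_deriv_eq_zero (convex_ball (0 : ℂ) R).isPreconnected
    (fun w hw => (hg w hw).differentiableAt.differentiableWithinAt)
    (fun w hw => (hg w hw).deriv) hw h0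
  simp only [hf0, neg_zero, exp_zero, mul_one] at hc
  rw [← hc, mul_assoc, ← Complex.exp_add]
  simp

/-- (EXPA) On `ball 0 R` let `f` be the primitive of `h' / h` with `f 0 = 0`
(`DifferentiableOn.isExactOn_ball`); then `h = h 0 * exp f`, so `Re f = log ‖h w / h 0‖ ≤ R + 2`
and `log_taylor` applies with `M = R + 2`: `f'(0) = h'(0)/h(0) = i β`, `|β| ≤ 2 (R+2)/R ≤ 3` (`R ≥ 4`),
`|f(s) - i β s| ≤ 16 (R+2) s^2/R^2`.  `|Re f(1)| = |log ‖h 1 / h 0‖| ≤ 4 δ` gives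
`|Im β| ≤ 4 δ + 16 (R+2)/R^2`.  Choose `R` large, then `δ` small. -/
theorem exp_form (p τ : ℝ) (hp : 0 ≤ p) (hτ : 0 < τ) :
    ∃ R δ : ℝ, 0 < R ∧ 0 < δ ∧ δ ≤ 1 / 2 ∧ ∀ h : ℂ → ℂ, Differentiable ℂ h →
      (∀ w ∈ ball (0 : ℂ) R, h w ≠ 0) → (∀ w ∈ ball (0 : ℂ) R, ‖h w‖ ≤ 3 / 2 * Real.exp R) →
      (∀ s : ℝ, |‖h s‖ - 1| ≤ δ) →
      |(deriv h 0 / (I * h 0)).re| ≤ 3 ∧
        ∀ s : ℝ, |s| ≤ p → ‖h s - exp (I * (s * (deriv h 0 / (I * h 0)).re : ℝ)) * h 0‖ ≤ τ := by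
  set t : ℝ := min τ 1 with ht
  have ht0 : 0 < t := lt_min hτ one_pos
  have ht1 : t ≤ 1 := min_le_right _ _
  have htτ : t ≤ τ := min_le_left _ _
  set R : ℝ := 4 + 2 * p + 144 * (p ^ 2 + p) / t with hRdef
  set δ : ℝ := min (1 / 2) (t / (24 * (p + 1))) with hδdef
  have hq0 : 0 ≤ 144 * (p ^ 2 + p) / t := by positivity
  have hR4 : 4 ≤ R := by linarith
  have hR0 : 0 < R := by linarith
  have hRp : 2 * p < R := by linarith
  have hRt : 144 * (p ^ 2 + p) ≤ R * t := by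
    have h1 : 144 * (p ^ 2 + p) / t ≤ R := by linarith
    rwa [div_le_iff₀ ht0] at h1
  have hδ0 : 0 < δ := lt_min (by norm_num) (by positivity)
  have hδ1 : δ ≤ 1 / 2 := min_le_left _ _
  have hδt : δ * (24 * (p + 1)) ≤ t := by
    have h1 : δ ≤ t / (24 * (p + 1)) := min_le_right _ _
    rwa [le_div_iff₀ (by positivity)] at h1
  refine ⟨R, δ, hR0, hδ0, hδ1, ?_⟩
  intro h hh hz hup hreal
  obtain ⟨f, hf0, hf, hexp⟩ := expa_prim hR0 hh hz
  have h0ball : (0 : ℂ) ∈ ball (0 : ℂ) R := mem_ball_self hR0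
  have hn0 : |‖h 0‖ - 1| ≤ δ := by simpa using hreal 0
  have hn0' := abs_le.mp hn0
  have hn0pos : 1 / 2 ≤ ‖h 0‖ := by linarith [hn0'.1]
  have hfd : DifferentiableOn ℂ f (ball 0 R) := fun w hw =>
    (hf w hw).differentiableAt.differentiableWithinAt
  have hlog : ∀ w ∈ ball (0 : ℂ) R, (f w).re = Real.log ‖h w‖ - Real.log ‖h 0‖ := by
    intro w hw
    have h1 : ‖h w‖ = ‖h 0‖ * Real.exp (f w).re := by
      rw [hexp w hw, norm_mul, Complex.norm_exp]
    rw [h1, Real.log_mul (by linarith) (Real.exp_pos _).ne', Real.log_exp]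
    ring
  have hre : ∀ w ∈ ball (0 : ℂ) R, (f w).re ≤ R + 2 := by
    intro w hw
    rw [hlog w hw]
    have h1 : Real.log ‖h w‖ ≤ Real.log (3 / 2 * Real.exp R) :=
      Real.log_le_log (norm_pos_iff.mpr (hz w hw)) (hup w hw)
    rw [Real.log_mul (by norm_num) (Real.exp_pos _).ne', Real.log_exp] at h1
    have h2 : Real.log (3 / 2) ≤ 3 / 2 - 1 := Real.log_le_sub_one_of_pos (by norm_num)
    have h3 : Real.log (1 / 2) ≤ Real.log ‖h 0‖ := Real.log_le_log (by norm_num) hn0pos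
    have h4 : 1 - (1 / 2 : ℝ)⁻¹ ≤ Real.log (1 / 2) := Real.one_sub_inv_le_log_of_pos (by norm_num)
    norm_num at h4 h2
    linarith
  obtain ⟨hT1, hT2⟩ := log_taylor hR0 (by linarith : (0 : ℝ) < R + 2) hfd hf0 hre
  set γ : ℂ := deriv h 0 / (I * h 0) with hγ
  have hderiv : deriv f 0 = I * γ := by
    rw [(hf 0 h0ball).deriv, hγ]
    have h1 := hz 0 h0ball
    field_simp
  rw [hderiv] at hT1 hT2
  have hM : 16 * (R + 2) / R ^ 2 ≤ 24 / R := by
    rw [div_le_div_iff₀ (by positivity) hR0]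
    nlinarith [mul_pos hR0 hR0]
  have hb3 : |γ.re| ≤ 3 := by
    have h1 : |γ.re| ≤ ‖γ‖ := Complex.abs_re_le_norm γ
    have h2 : ‖I * γ‖ = ‖γ‖ := by rw [norm_mul, Complex.norm_I, one_mul]
    have h3 : 2 * (R + 2) / R ≤ 3 := by
      rw [div_le_iff₀ hR0]; linarith
    linarith
  refine ⟨hb3, ?_⟩
  have him : |γ.im| ≤ 4 * δ + 24 / R := by
    have h1ball : (1 : ℂ) ∈ ball (0 : ℂ) R := by
      rw [mem_ball_zero_iff, norm_one]; linarith
    have h2 := hT2 1 (by rw [norm_one]; linarith)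
    rw [norm_one, one_pow, mul_one, mul_one] at h2
    have h3 : |(f 1 - I * γ).re| ≤ 24 / R :=
      le_trans (Complex.abs_re_le_norm _) (le_trans h2 hM)
    have h4 : (f 1 - I * γ).re = (f 1).re + γ.im := by simp
    rw [h4, hlog 1 h1ball] at h3
    have h5 : |Real.log ‖h 1‖| ≤ 2 * δ := expa_log hδ1 (by simpa using hreal 1)
    have h6 : |Real.log ‖h 0‖| ≤ 2 * δ := expa_log hδ1 hn0
    rw [abs_le] at h3 h5 h6 ⊢
    constructor <;> linarith [h3.1, h3.2, h5.1, h5.2, h6.1, h6.2]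
  intro s hs
  have hs2 : ‖(s : ℂ)‖ < R / 2 := by
    rw [Complex.norm_real, Real.norm_eq_abs]; linarith
  have hsball : (s : ℂ) ∈ ball (0 : ℂ) R := by
    rw [mem_ball_zero_iff]; linarith
  have hsT := hT2 s hs2
  have hε : ‖f s - I * (s * γ.re : ℝ)‖ ≤ t / 3 := by
    have h1 : f s - I * (s * γ.re : ℝ) = (f s - I * γ * s) - ((γ.im * s : ℝ) : ℂ) := by
      have h2 : γ = (γ.re : ℂ) + (γ.im : ℂ) * I := (Complex.re_add_im γ).symm
      have h3 : I * γ * s = I * (γ.re * s) - (γ.im : ℂ) * s := by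
        conv_lhs => rw [h2]
        linear_combination (γ.im : ℂ) * s * Complex.I_mul_I
      rw [h3]
      push_cast
      ring
    rw [h1]
    refine le_trans (norm_sub_le _ _) ?_
    have h4 : ‖f s - I * γ * s‖ ≤ 24 / R * p ^ 2 := by
      refine le_trans hsT ?_
      rw [Complex.norm_real, Real.norm_eq_abs, sq_abs]
      have h5 : s ^ 2 ≤ p ^ 2 := by
        rw [← sq_abs s]
        exact pow_le_pow_left₀ (abs_nonneg _) hs 2
      have h6 : 16 * (R + 2) * s ^ 2 / R ^ 2 = 16 * (R + 2) / R ^ 2 * s ^ 2 := by ring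
      rw [h6]
      exact mul_le_mul hM h5 (sq_nonneg _) (by positivity)
    have h7 : ‖((γ.im * s : ℝ) : ℂ)‖ ≤ (4 * δ + 24 / R) * p := by
      rw [Complex.norm_real, Real.norm_eq_abs, abs_mul]
      exact mul_le_mul him hs (abs_nonneg _) (by positivity)
    have h8 : 24 / R * (p ^ 2 + p) ≤ t / 6 := by
      rw [div_mul_eq_mul_div, div_le_iff₀ hR0]
      linarith
    have h9 : 4 * δ * p ≤ t / 6 := by
      nlinarith
    nlinarith
  have hfin : h s - exp (I * (s * γ.re : ℝ)) * h 0 =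
      h 0 * exp (I * (s * γ.re : ℝ)) * (exp (f s - I * (s * γ.re : ℝ)) - 1) := by
    rw [mul_sub, mul_assoc (h 0), ← Complex.exp_add, hexp s hsball]
    have h1 : I * ((s * γ.re : ℝ) : ℂ) + (f s - I * ((s * γ.re : ℝ) : ℂ)) = f s := by ring
    rw [h1]
    ring
  rw [hfin, norm_mul, norm_mul]
  have h10 : ‖exp (I * ((s * γ.re : ℝ) : ℂ))‖ = 1 := by
    rw [mul_comm]
    exact Complex.norm_exp_ofReal_mul_I _
  rw [h10, mul_one]
  have h11 := Complex.norm_exp_sub_one_le (le_trans hε (by linarith : t / 3 ≤ 1))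
  have h12 : ‖h 0‖ ≤ 3 / 2 := by linarith [hn0'.2]
  calc ‖h 0‖ * ‖exp (f s - I * (s * γ.re : ℝ)) - 1‖
      ≤ 3 / 2 * (2 * (t / 3)) := by
        refine mul_le_mul h12 (le_trans h11 ?_) (norm_nonneg _) (by norm_num)
        linarith
    _ ≤ τ := by linarith

end Vale.Agent.P110
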