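import Vale.Agent.P110.Grow
import Vale.Agent.P110.LogT

/-! P110 module EXPB: local exponential form of a flat polynomial. -/

namespace Vale.Agent.P110

open Finset Complex ComplexConjugate Metric
open scoped Real

private lemma expb_hasDeriv (N : ℕ) (a : ℕ → ℂ) (x : ℝ) (ζ : ℂ) :
    HasDerivAt (fun ζ : ℂ => PP N a ((x : ℂ) + ζ / N) / (Real.sqrt N : ℂ))
      ((∑ k ∈ range N, a k * (exp (I * k * ((x : ℂ) + ζ / N)) * (I * k * (1 / (N : ℂ))))) /
        (Real.sqrt N : ℂ)) ζ := by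
  unfold PP
  refine HasDerivAt.div_const ?_ _
  refine HasDerivAt.fun_sum fun k _ => ?_
  refine HasDerivAt.const_mul _ ?_
  refine HasDerivAt.cexp ?_
  refine HasDerivAt.const_mul _ ?_
  refine HasDerivAt.const_add _ ?_
  exact (hasDerivAt_id ζ).div_const _

/-- (EXPB) `exp_form` for `h ζ = PP N a (x + ζ / N) / √N`, with `δ = min δ₁ (exp (-R) / 2)`.
Zero-free: `grow_T` gives `‖PP w * conj (PP (conj w)) - N‖ ≤ δ N exp R ≤ N / 2` for
`w = x + ζ/N`, `‖ζ‖ < R`.  Upper bound: `grow_upper` with `A = (3/2) √N`.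
`|u^2 - 1| ≤ δ → |u - 1| ≤ δ` for `u ≥ 0`.  `deriv h 0 / (I * h 0)` is
`(∑ k a_k e^{ikx} / PP N a x) / N`. -/
theorem local_exp (p τ : ℝ) (hp : 0 ≤ p) (hτ : 0 < τ) :
    ∃ δ : ℝ, 0 < δ ∧ ∀ (N : ℕ) (a : ℕ → ℂ), 0 < N →
      (∀ x : ℝ, |‖PP N a x‖ ^ 2 - N| ≤ δ * N) → ∀ x : ℝ, |bs N a x| ≤ 3 ∧
        ∀ s : ℝ, |s| ≤ p →
          ‖PP N a ((x + s / N : ℝ) : ℂ) - exp (I * (s * bs N a x : ℝ)) * PP N a x‖
            ≤ τ * Real.sqrt N := by
  obtain ⟨R, δ₁, hR, hδ₁, hδ₁', H⟩ := exp_form p τ hp hτ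
  refine ⟨min δ₁ (Real.exp (-R) / 2), lt_min hδ₁ (by positivity), ?_⟩
  intro N a hN hflat x
  set δ : ℝ := min δ₁ (Real.exp (-R) / 2) with hδdef
  have hδpos : 0 < δ := lt_min hδ₁ (by positivity)
  have hδle : δ ≤ δ₁ := min_le_left _ _
  have hδle' : δ ≤ Real.exp (-R) / 2 := min_le_right _ _
  have hNr : (0 : ℝ) < N := by exact_mod_cast hN
  have hNc : (N : ℂ) ≠ 0 := by exact_mod_cast hN.ne'
  have hsq : 0 < Real.sqrt N := Real.sqrt_pos.2 hNr
  have hsqc : (Real.sqrt N : ℂ) ≠ 0 := by exact_mod_cast hsq.ne'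
  have hsqsq : Real.sqrt N ^ 2 = N := Real.sq_sqrt hNr.le
  -- bound on the real line
  have hA : ∀ y : ℝ, ‖PP N a y‖ ≤ 3 / 2 * Real.sqrt N := by
    intro y
    have h1 := (abs_le.1 (hflat y)).2
    have h2 : δ * N ≤ 1 / 2 * N := mul_le_mul_of_nonneg_right (hδle.trans hδ₁') hNr.le
    have h3 : ‖PP N a y‖ ^ 2 ≤ (3 / 2 * Real.sqrt N) ^ 2 := by
      rw [mul_pow, hsqsq]
      nlinarith
    exact (abs_le_of_sq_le_sq' h3 (by positivity)).2
  -- imaginary part
  have him : ∀ ζ ∈ ball (0 : ℂ) R, N * |((x : ℂ) + ζ / N).im| ≤ R := by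
    intro ζ hζ
    have h1 : ((x : ℂ) + ζ / N).im = ζ.im / N := by
      simp
    rw [h1, abs_div, abs_of_pos hNr, mul_div_cancel₀ _ hNr.ne']
    have h2 : ‖ζ‖ < R := by simpa using hζ
    exact (abs_im_le_norm ζ).trans h2.le
  set h : ℂ → ℂ := fun ζ => PP N a ((x : ℂ) + ζ / N) / (Real.sqrt N : ℂ) with hh
  have hdiff : Differentiable ℂ h := fun ζ => (expb_hasDeriv N a x ζ).differentiableAt
  have hnz : ∀ w ∈ ball (0 : ℂ) R, h w ≠ 0 := by
    intro ζ hζ h0
    have h1 : PP N a ((x : ℂ) + ζ / N) = 0 := by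
      rcases div_eq_zero_iff.1 h0 with h2 | h2
      · exact h2
      · exact absurd h2 hsqc
    have h3 := grow_T hflat ((x : ℂ) + ζ / N)
    rw [h1, zero_mul, zero_sub, norm_neg] at h3
    have h4 : ‖(N : ℂ)‖ = N := by simp
    rw [h4] at h3
    have h5 : Real.exp (N * |((x : ℂ) + ζ / N).im|) ≤ Real.exp R := Real.exp_le_exp.2 (him ζ hζ)
    have h6 : δ * N * Real.exp (N * |((x : ℂ) + ζ / N).im|) ≤
        (Real.exp (-R) / 2) * N * Real.exp R := by
      have : 0 < Real.exp (-R) / 2 * N := by positivity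
      exact mul_le_mul (mul_le_mul_of_nonneg_right hδle' hNr.le) h5 (Real.exp_pos _).le this.le
    have h7 : (Real.exp (-R) / 2) * N * Real.exp R = N / 2 := by
      have : Real.exp (-R) * Real.exp R = 1 := by rw [← Real.exp_add]; simp
      calc (Real.exp (-R) / 2) * N * Real.exp R = (Real.exp (-R) * Real.exp R) * (N / 2) := by ring
        _ = N / 2 := by rw [this, one_mul]
    linarith
  have hup : ∀ w ∈ ball (0 : ℂ) R, ‖h w‖ ≤ 3 / 2 * Real.exp R := by
    intro ζ hζ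
    have h1 : ‖PP N a ((x : ℂ) + ζ / N)‖ ≤ 3 / 2 * Real.sqrt N * Real.exp R := by
      have hg := grow_upper hA ((x : ℂ) + ζ / N)
      have hApos : 0 ≤ 3 / 2 * Real.sqrt N := by positivity
      have h1R : (1 : ℝ) ≤ Real.exp R := Real.one_le_exp hR.le
      rcases le_total 0 ((x : ℂ) + ζ / N).im with h2 | h2
      · refine (hg.1 h2).trans ?_
        nlinarith
      · refine (hg.2 h2).trans ?_
        refine mul_le_mul_of_nonneg_left ?_ hApos
        refine Real.exp_le_exp.2 ?_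
        have h3 := him ζ hζ
        rwa [abs_of_nonpos h2] at h3
    have h2 : ‖h ζ‖ = ‖PP N a ((x : ℂ) + ζ / N)‖ / Real.sqrt N := by
      simp only [hh]
      rw [norm_div]
      congr 1
      rw [Complex.norm_real, Real.norm_eq_abs, abs_of_pos hsq]
    rw [h2, div_le_iff₀ hsq]
    linarith
  have hcast : ∀ s : ℝ, (x : ℂ) + (s : ℂ) / N = ((x + s / N : ℝ) : ℂ) := by
    intro s
    push_cast
    ring
  have hone : ∀ s : ℝ, |‖h s‖ - 1| ≤ δ₁ := by
    intro s
    have h2 : ‖h s‖ = ‖PP N a ((x + s / N : ℝ) : ℂ)‖ / Real.sqrt N := by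
      simp only [hh]
      rw [norm_div, hcast]
      congr 1
      rw [Complex.norm_real, Real.norm_eq_abs, abs_of_pos hsq]
    have h3 : ‖h s‖ ^ 2 - 1 = (‖PP N a ((x + s / N : ℝ) : ℂ)‖ ^ 2 - N) / N := by
      rw [h2, div_pow, hsqsq]
      field_simp
    have h4 : |‖h s‖ ^ 2 - 1| ≤ δ := by
      rw [h3, abs_div, abs_of_pos hNr, div_le_iff₀ hNr]
      exact hflat _
    have h5 : |‖h s‖ - 1| ≤ |‖h s‖ ^ 2 - 1| := by
      have h6 : ‖h s‖ ^ 2 - 1 = (‖h s‖ - 1) * (‖h s‖ + 1) := by ring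
      rw [h6, abs_mul]
      have h7 : (1 : ℝ) ≤ |‖h s‖ + 1| := by
        rw [abs_of_nonneg (by positivity)]
        linarith [norm_nonneg (h s)]
      exact le_mul_of_one_le_right (abs_nonneg _) h7
    exact h5.trans (h4.trans hδle)
  obtain ⟨K1, K2⟩ := H h hdiff hnz hup hone
  have hderiv : deriv h 0 =
      (∑ k ∈ range N, a k * (exp (I * k * ((x : ℂ) + 0 / N)) * (I * k * (1 / (N : ℂ))))) /
        (Real.sqrt N : ℂ) := (expb_hasDeriv N a x 0).deriv
  have hh0 : h 0 = PP N a x / (Real.sqrt N : ℂ) := by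
    simp [hh]
  have hsum : (∑ k ∈ range N, a k * (exp (I * k * ((x : ℂ) + 0 / N)) * (I * k * (1 / (N : ℂ))))) =
      I * (∑ k ∈ range N, (k : ℂ) * a k * exp (I * k * x)) / N := by
    rw [Finset.mul_sum, Finset.sum_div]
    refine Finset.sum_congr rfl fun k _ => ?_
    rw [zero_div, add_zero]
    ring
  have hbs : (deriv h 0 / (I * h 0)).re = bs N a x := by
    have h1 : deriv h 0 / (I * h 0) =
        ((∑ k ∈ range N, (k : ℂ) * a k * exp (I * k * x)) / PP N a x) / ((N : ℝ) : ℂ) := by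
      rw [hderiv, hsum, hh0]
      have hP : PP N a x ≠ 0 := by
        have := hnz 0 (by simpa using hR)
        rw [hh0] at this
        intro h0
        exact this (by rw [h0, zero_div])
      have hI : I ≠ 0 := I_ne_zero
      push_cast
      generalize (∑ k ∈ range N, (k : ℂ) * a k * exp (I * k * x)) = S
      field_simp
    rw [h1, Complex.div_ofReal_re]
    rfl
  rw [hbs] at K1 K2
  refine ⟨K1, fun s hs => ?_⟩
  have h1 := K2 s hs
  have h2 : h s - exp (I * (s * bs N a x : ℝ)) * h 0 =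
      (PP N a ((x + s / N : ℝ) : ℂ) - exp (I * (s * bs N a x : ℝ)) * PP N a x) /
        (Real.sqrt N : ℂ) := by
    rw [hh0]
    simp only [hh]
    rw [hcast]
    ring
  rw [h2, norm_div, Complex.norm_real, Real.norm_eq_abs, abs_of_pos hsq, div_le_iff₀ hsq] at h1
  exact h1

end Vale.Agent.P110
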