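import Mathlib

/-! P110 module FR (helper83): the Fejer-Riesz theorem. -/

open Polynomial

namespace Vale.Agent.P110

theorem FR_infinite : {z : ℂ | ‖z‖ = 1}.Infinite := by
  refine Set.infinite_of_injective_forall_mem (f := fun n : ℕ =>
    Complex.exp ((((1 : ℝ) / ((n : ℝ) + 1) : ℝ) : ℂ) * Complex.I)) ?_ ?_
  · intro m n h
    have hb : ∀ k : ℕ, 0 < (1 : ℝ) / ((k : ℝ) + 1) ∧ (1 : ℝ) / ((k : ℝ) + 1) ≤ 1 := by
      intro k
      have hk : (0 : ℝ) < (k : ℝ) + 1 := by positivity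
      refine ⟨by positivity, ?_⟩
      rw [div_le_one hk]
      have : (0 : ℝ) ≤ k := Nat.cast_nonneg k
      linarith
    have him : ∀ t : ℝ, ((t : ℂ) * Complex.I).im = t := fun t => by simp
    have h1 := Complex.exp_inj_of_neg_pi_lt_of_le_pi
      (x := (((1 : ℝ) / ((m : ℝ) + 1) : ℝ) : ℂ) * Complex.I)
      (y := (((1 : ℝ) / ((n : ℝ) + 1) : ℝ) : ℂ) * Complex.I)
      (by rw [him]; linarith [(hb m).1, Real.pi_pos])
      (by rw [him]; linarith [(hb m).2, Real.pi_gt_three])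
      (by rw [him]; linarith [(hb n).1, Real.pi_pos])
      (by rw [him]; linarith [(hb n).2, Real.pi_gt_three]) h
    have h2 := congrArg Complex.im h1
    rw [him, him] at h2
    have h3 : (m : ℝ) + 1 = (n : ℝ) + 1 := by
      have := congrArg (fun t : ℝ => 1 / t) h2
      simpa using this
    exact_mod_cast add_right_cancel h3
  · intro n
    exact Complex.norm_exp_ofReal_mul_I _

theorem FR_star_eval (p : ℂ[X]) {w : ℂ} (hw : w ≠ 0) :
    (p.map (starRingEnd ℂ)).reverse.eval w * (w⁻¹) ^ p.natDegree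
      = starRingEnd ℂ (p.eval (starRingEnd ℂ w⁻¹)) := by
  have hinv : Invertible (w⁻¹) := invertibleOfNonzero (inv_ne_zero hw)
  have h := Polynomial.eval₂_reverse_mul_pow (RingHom.id ℂ) (w⁻¹) (p.map (starRingEnd ℂ))
  have hd : (p.map (starRingEnd ℂ)).natDegree = p.natDegree :=
    Polynomial.natDegree_map_eq_of_injective (starRingEnd ℂ).injective p
  rw [hd, invOf_eq_inv, inv_inv] at h
  have h2 : eval₂ (RingHom.id ℂ) w (p.map (starRingEnd ℂ)).reverse
      = (p.map (starRingEnd ℂ)).reverse.eval w := rfl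
  have h3 : eval₂ (RingHom.id ℂ) w⁻¹ (p.map (starRingEnd ℂ))
      = starRingEnd ℂ (p.eval (starRingEnd ℂ w⁻¹)) := by
    have h4 : eval₂ (RingHom.id ℂ) w⁻¹ (p.map (starRingEnd ℂ))
      = (p.map (starRingEnd ℂ)).eval w⁻¹ := rfl
    rw [h4, Polynomial.eval_map]
    have h5 := Polynomial.eval₂_at_apply (p := p) (starRingEnd ℂ) (starRingEnd ℂ w⁻¹)
    rw [Complex.conj_conj] at h5
    exact h5
  rw [← h2, h, h3]

theorem FR_circle {z : ℂ} (hz : ‖z‖ = 1) : starRingEnd ℂ z⁻¹ = z := by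
  have h0 : z ≠ 0 := by
    intro h
    rw [h, norm_zero] at hz
    exact zero_ne_one hz
  have h1 : z * starRingEnd ℂ z = 1 := by
    rw [Complex.mul_conj, Complex.normSq_eq_norm_sq, hz]
    norm_num
  rw [map_inv₀]
  exact (eq_inv_of_mul_eq_one_left h1).symm

theorem FR_self {n : ℕ} {p : ℂ[X]} (hp : p.natDegree = 2 * n)
    (hpos : ∀ z : ℂ, ‖z‖ = 1 → ∃ t : ℝ, 0 < t ∧ p.eval z = t * z ^ n) :
    p = (p.map (starRingEnd ℂ)).reverse := by
  refine Polynomial.eq_of_infinite_eval_eq _ _ (FR_infinite.mono ?_)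
  intro z hz
  have hz1 : ‖z‖ = 1 := hz
  have h0 : z ≠ 0 := by
    intro h
    rw [h, norm_zero] at hz1
    exact zero_ne_one hz1
  have h := FR_star_eval p h0
  obtain ⟨t, _, ht⟩ := hpos z hz1
  rw [FR_circle hz1, ht, hp, map_mul, map_pow, Complex.conj_ofReal] at h
  have h1 : z * starRingEnd ℂ z = 1 := by
    rw [Complex.mul_conj, Complex.normSq_eq_norm_sq, hz1]
    norm_num
  have h2 : starRingEnd ℂ z = z⁻¹ := (eq_inv_of_mul_eq_one_right h1)
  rw [h2] at h
  show p.eval z = (p.map (starRingEnd ℂ)).reverse.eval z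
  rw [ht]
  have h3 : z ^ (2 * n) ≠ 0 := pow_ne_zero _ h0
  have h4 : (p.map (starRingEnd ℂ)).reverse.eval z = (t * z⁻¹ ^ n) * z ^ (2 * n) := by
    rw [← h, mul_assoc, ← mul_pow, inv_mul_cancel₀ h0, one_pow, mul_one]
  rw [h4, two_mul, pow_add, mul_assoc, ← mul_assoc (z⁻¹ ^ n), ← mul_pow, inv_mul_cancel₀ h0,
    one_pow, one_mul]

/-- FR -/
theorem fejer_riesz_proved (n : ℕ) (p : ℂ[X]) (hp : p.natDegree = 2 * n)
    (hpos : ∀ z : ℂ, ‖z‖ = 1 → ∃ t : ℝ, 0 < t ∧ p.eval z = t * z ^ n) :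
    ∃ q : ℂ[X], q.natDegree ≤ n ∧
      ∀ z : ℂ, ‖z‖ = 1 → p.eval z = ((‖q.eval z‖ ^ 2 : ℝ) : ℂ) * z ^ n := by
  induction n generalizing p with
  | zero =>
    obtain ⟨t, ht, h1⟩ := hpos 1 (by simp)
    have hc : p = C (p.coeff 0) := Polynomial.eq_C_of_natDegree_eq_zero (by simpa using hp)
    have hct : p.coeff 0 = (t : ℂ) := by
      rw [hc] at h1
      simpa using h1
    refine ⟨C ((Real.sqrt t : ℝ) : ℂ), by simp, fun z _ => ?_⟩
    rw [hc, hct, eval_C, eval_C, Complex.norm_real, Real.norm_eq_abs, sq_abs,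
      Real.sq_sqrt ht.le, pow_zero, mul_one]
  | succ n ih =>
    have hself := FR_self hp hpos
    have hp0 : p ≠ 0 := by
      intro h
      rw [h, natDegree_zero] at hp
      omega
    have hmap0 : p.map (starRingEnd ℂ) ≠ 0 :=
      (Polynomial.map_ne_zero_iff (starRingEnd ℂ).injective).2 hp0
    have hcoeff : p.coeff 0 ≠ 0 := by
      rw [hself, Polynomial.coeff_zero_reverse]
      exact Polynomial.leadingCoeff_ne_zero.2 hmap0
    have hdeg : p.degree ≠ 0 := by
      rw [Polynomial.degree_eq_natDegree hp0, hp]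
      exact_mod_cast (by omega : 2 * (n + 1) ≠ 0)
    obtain ⟨r, hr⟩ := IsAlgClosed.exists_root p hdeg
    have hr' : p.eval r = 0 := hr
    have hr0 : r ≠ 0 := by
      rintro rfl
      rw [← Polynomial.coeff_zero_eq_eval_zero] at hr'
      exact hcoeff hr'
    have hrn : ‖r‖ ≠ 1 := by
      intro h
      obtain ⟨t, ht, h1⟩ := hpos r h
      rw [hr'] at h1
      have : (t : ℂ) * r ^ (n + 1) ≠ 0 :=
        mul_ne_zero (Complex.ofReal_ne_zero.2 ht.ne') (pow_ne_zero _ hr0)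
      exact this h1.symm
    obtain ⟨s, hs⟩ : ∃ s : ℂ, s = (starRingEnd ℂ r)⁻¹ := ⟨_, rfl⟩
    have hcr0 : starRingEnd ℂ r ≠ 0 := (_root_.map_ne_zero _).2 hr0
    have hs0 : s ≠ 0 := by rw [hs]; exact inv_ne_zero hcr0
    have hps : p.eval s = 0 := by
      have h := FR_star_eval p hs0
      have h1 : starRingEnd ℂ s⁻¹ = r := by rw [hs, inv_inv, Complex.conj_conj]
      rw [h1, hr', map_zero, ← hself] at h
      exact (mul_eq_zero.1 h).resolve_right (pow_ne_zero _ (inv_ne_zero hs0))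
    have hrs : s ≠ r := by
      intro h
      have h1 : ‖s‖ = ‖r‖⁻¹ := by rw [hs, norm_inv, Complex.norm_conj]
      rw [h] at h1
      have h2 : 0 < ‖r‖ := norm_pos_iff.2 hr0
      have h3 : ‖r‖ * ‖r‖ = 1 := by
        nth_rewrite 2 [h1]
        exact mul_inv_cancel₀ h2.ne'
      exact hrn (by nlinarith)
    obtain ⟨p0, hp0'⟩ := (Polynomial.dvd_iff_isRoot.2 hr : (X - C r) ∣ p)
    have hp0s : p0.eval s = 0 := by
      rw [hp0', eval_mul, eval_sub, eval_X, eval_C] at hps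
      exact (mul_eq_zero.1 hps).resolve_left (sub_ne_zero.2 hrs)
    obtain ⟨p1, hp1⟩ := (Polynomial.dvd_iff_isRoot.2 hp0s : (X - C s) ∣ p0)
    have hpf : p = (X - C r) * ((X - C s) * p1) := by rw [← hp1]; exact hp0'
    have hp1z : p1 ≠ 0 := by
      rintro rfl
      rw [mul_zero, mul_zero] at hpf
      exact hp0 hpf
    have hd1 : p1.natDegree = 2 * n := by
      have h1 : p.natDegree = 1 + (1 + p1.natDegree) := by
        rw [hpf, natDegree_mul (X_sub_C_ne_zero r) (mul_ne_zero (X_sub_C_ne_zero s) hp1z),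
          natDegree_mul (X_sub_C_ne_zero s) hp1z, natDegree_X_sub_C, natDegree_X_sub_C]
      omega
    obtain ⟨c, hc⟩ : ∃ c : ℂ, c = -(starRingEnd ℂ r)⁻¹ := ⟨_, rfl⟩
    have hc0 : c ≠ 0 := by rw [hc]; exact neg_ne_zero.2 (inv_ne_zero hcr0)
    have hev : ∀ z : ℂ, ‖z‖ = 1 →
        p.eval z = ((‖z - r‖ ^ 2 : ℝ) : ℂ) * z * (C c * p1).eval z := by
      intro z hz
      have h1 : z * starRingEnd ℂ z = 1 := by
        rw [Complex.mul_conj, Complex.normSq_eq_norm_sq, hz]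
        norm_num
      have h2 : ((‖z - r‖ ^ 2 : ℝ) : ℂ) = (z - r) * (starRingEnd ℂ z - starRingEnd ℂ r) := by
        rw [← map_sub, Complex.mul_conj, Complex.normSq_eq_norm_sq]
      rw [hpf, h2]
      simp only [eval_mul, eval_sub, eval_X, eval_C]
      rw [hc, hs]
      have h3 : z - (starRingEnd ℂ r)⁻¹
          = (starRingEnd ℂ z - starRingEnd ℂ r) * z * -(starRingEnd ℂ r)⁻¹ := by
        have h4 : starRingEnd ℂ r * (starRingEnd ℂ r)⁻¹ = 1 := mul_inv_cancel₀ hcr0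
        linear_combination (starRingEnd ℂ r)⁻¹ * h1 - z * h4
      rw [h3]
      ring
    obtain ⟨q1, hq1, hq1'⟩ := ih (C c * p1) (by rw [natDegree_C_mul hc0, hd1]) (fun z hz => by
      obtain ⟨t, ht, h1⟩ := hpos z hz
      have hz0 : z ≠ 0 := by
        intro h
        rw [h, norm_zero] at hz
        exact zero_ne_one hz
      have hzr : 0 < ‖z - r‖ ^ 2 := by
        have : z - r ≠ 0 := by
          intro h
          rw [sub_eq_zero] at h
          rw [h] at hz
          exact hrn hz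
        positivity
      refine ⟨t / ‖z - r‖ ^ 2, by positivity, ?_⟩
      rw [hev z hz] at h1
      have h2 : ((‖z - r‖ ^ 2 : ℝ) : ℂ) ≠ 0 := Complex.ofReal_ne_zero.2 hzr.ne'
      have h3 : ((‖z - r‖ ^ 2 : ℝ) : ℂ) * z ≠ 0 := mul_ne_zero h2 hz0
      apply mul_left_cancel₀ h3
      rw [h1, Complex.ofReal_div, pow_succ]
      field_simp)
    refine ⟨(X - C r) * q1, ?_, fun z hz => ?_⟩
    · refine natDegree_mul_le.trans ?_
      rw [natDegree_X_sub_C]
      omega
    · rw [hev z hz, hq1' z hz, eval_mul, eval_sub, eval_X, eval_C, norm_mul, mul_pow,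
        Complex.ofReal_mul, pow_succ]
      ring

end Vale.Agent.P110
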