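import Vale.Agent.P110.Defs

/-! P110 modules PER, RUN: words generated by a finite rule. -/

namespace Vale.Agent.P110

open Finset

/-- (PER) auxiliary: one step of the word -/
theorem PER_step {M : ℕ} {Φ : (Fin M → ℝ) → ℝ} {a : ℤ → ℝ} {u v : ℤ}
    (hrule : ∀ k : ℤ, u ≤ k → k < v → a k = Φ (fun j : Fin M => a (k - 1 - (j : ℕ))))
    (p : ℤ) (d : ℕ) (hp : u ≤ p) (hv : p + d < v)
    (h : (fun j : Fin M => a (p - 1 - (j : ℕ))) = fun j : Fin M => a (p + d - 1 - (j : ℕ))) :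
    a (p + d) = a p ∧
      (fun j : Fin M => a (p + 1 - 1 - (j : ℕ))) =
        fun j : Fin M => a (p + 1 + d - 1 - (j : ℕ)) := by
  have h1 : a (p + d) = a p := by
    rw [hrule p hp (by omega), hrule (p + d) (by omega) hv, h]
  refine ⟨h1, ?_⟩
  funext j
  obtain ⟨j, hj⟩ := j
  cases j with
  | zero =>
    have e1 : p + 1 - 1 - ((0 : ℕ) : ℤ) = p := by push_cast; ring
    have e2 : p + 1 + (d : ℤ) - 1 - ((0 : ℕ) : ℤ) = p + d := by push_cast; ring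
    simp only [e1, e2, h1]
  | succ j =>
    have h2 := congrFun h ⟨j, by omega⟩
    have e1 : p + 1 - 1 - ((j + 1 : ℕ) : ℤ) = p - 1 - (j : ℕ) := by push_cast; ring
    have e2 : p + 1 + (d : ℤ) - 1 - ((j + 1 : ℕ) : ℤ) = p + d - 1 - (j : ℕ) := by
      push_cast; ring
    simp only [e1, e2]
    exact h2

/-- (PER) auxiliary: equal states propagate -/
theorem PER_state {M : ℕ} {Φ : (Fin M → ℝ) → ℝ} {a : ℤ → ℝ} {u v : ℤ}
    (hrule : ∀ k : ℤ, u ≤ k → k < v → a k = Φ (fun j : Fin M => a (k - 1 - (j : ℕ))))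
    (p : ℤ) (d : ℕ) (hp : u ≤ p)
    (h : (fun j : Fin M => a (p - 1 - (j : ℕ))) = fun j : Fin M => a (p + d - 1 - (j : ℕ)))
    (n : ℕ) : p + n + d ≤ v →
      (fun j : Fin M => a (p + n - 1 - (j : ℕ))) =
        fun j : Fin M => a (p + n + d - 1 - (j : ℕ)) := by
  induction n with
  | zero =>
    intro _
    have e1 : p + ((0 : ℕ) : ℤ) = p := by push_cast; ring
    rw [e1]
    exact h
  | succ n ih =>
    intro hv
    have hv' : p + n + 1 + d ≤ v := by push_cast at hv; linarith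
    have h2 := (PER_step hrule (p + n) d (by omega) (by omega) (ih (by omega))).2
    have e1 : p + ((n + 1 : ℕ) : ℤ) = p + n + 1 := by push_cast; ring
    rw [e1]
    exact h2

/-- (PER) auxiliary: `d` is a period after the first position -/
theorem PER_shift {M : ℕ} {Φ : (Fin M → ℝ) → ℝ} {a : ℤ → ℝ} {u v : ℤ}
    (hrule : ∀ k : ℤ, u ≤ k → k < v → a k = Φ (fun j : Fin M => a (k - 1 - (j : ℕ))))
    (p : ℤ) (d : ℕ) (hp : u ≤ p)
    (h : (fun j : Fin M => a (p - 1 - (j : ℕ))) = fun j : Fin M => a (p + d - 1 - (j : ℕ)))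
    (k : ℤ) (hk : p ≤ k) (hkv : k + d < v) : a (k + d) = a k := by
  obtain ⟨n, hn⟩ := Int.eq_ofNat_of_zero_le (sub_nonneg.2 hk)
  have e : k = p + n := by omega
  subst e
  exact (PER_step hrule (p + n) d (by omega) hkv
    (PER_state hrule p d hp h n (by omega))).1

/-- (PER) auxiliary: multiples of the period -/
theorem PER_mult {M : ℕ} {Φ : (Fin M → ℝ) → ℝ} {a : ℤ → ℝ} {u v : ℤ}
    (hrule : ∀ k : ℤ, u ≤ k → k < v → a k = Φ (fun j : Fin M => a (k - 1 - (j : ℕ))))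
    (p : ℤ) (d : ℕ) (hp : u ≤ p)
    (h : (fun j : Fin M => a (p - 1 - (j : ℕ))) = fun j : Fin M => a (p + d - 1 - (j : ℕ)))
    (m : ℕ) : ∀ k : ℤ, p ≤ k → k + ((m * d : ℕ) : ℤ) < v → a (k + ((m * d : ℕ) : ℤ)) = a k := by
  induction m with
  | zero =>
    intro k _ _
    rw [Nat.zero_mul, Nat.cast_zero, add_zero]
  | succ m ih =>
    intro k hk hkv
    have e : k + (((m + 1) * d : ℕ) : ℤ) = k + ((m * d : ℕ) : ℤ) + d := by push_cast; ring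
    have hnn : (0 : ℤ) ≤ ((m * d : ℕ) : ℤ) := Int.natCast_nonneg _
    have hnd : (0 : ℤ) ≤ (d : ℤ) := Int.natCast_nonneg _
    rw [e] at hkv ⊢
    rw [PER_shift hrule p d hp h (k + ((m * d : ℕ) : ℤ)) (by linarith) hkv]
    exact ih k hk (by linarith)

/-- (PER) Pigeonhole for the `2^M + 1` states `(a (k-1), ..., a (k-M))`, `u ≤ k ≤ u + 2^M`
(if `v < u + 2^M` there is nothing to prove): two of them agree, `k = i < j`, so `a (k + (j-i)) = a k`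
for all `k ≥ i` with `k + (j - i) < v`; `j - i` divides `(2^M)!`. -/
theorem per_of_rule (M : ℕ) (Φ : (Fin M → ℝ) → ℝ) (a : ℤ → ℝ) (u v : ℤ)
    (hpm : ∀ k : ℤ, u - M ≤ k → k < v → a k = 1 ∨ a k = -1)
    (hrule : ∀ k : ℤ, u ≤ k → k < v → a k = Φ (fun j : Fin M => a (k - 1 - (j : ℕ)))) :
    ∀ k : ℤ, u + 2 ^ M ≤ k → k + ((2 ^ M).factorial : ℕ) < v →
      a (k + ((2 ^ M).factorial : ℕ)) = a k := by
  classical
  intro k hk hkv
  have hfac : (1 : ℤ) ≤ (((2 ^ M).factorial : ℕ) : ℤ) := by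
    exact_mod_cast Nat.factorial_pos _
  have huv : u + 2 ^ M < v := by linarith
  let S : Fin (2 ^ M + 1) → (Fin M → Bool) := fun i j =>
    decide (a (u + (i : ℕ) - 1 - (j : ℕ)) = 1)
  obtain ⟨i0, j0, hne, hS⟩ : ∃ i j : Fin (2 ^ M + 1), i ≠ j ∧ S i = S j :=
    Fintype.exists_ne_map_eq_of_card_lt S (by simp)
  obtain ⟨i, j, hlt, hS⟩ : ∃ i j : Fin (2 ^ M + 1), i < j ∧ S i = S j := by
    rcases lt_or_gt_of_ne hne with h | h
    · exact ⟨i0, j0, h, hS⟩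
    · exact ⟨j0, i0, h, hS.symm⟩
  have hi : (i : ℕ) ≤ 2 ^ M := Nat.lt_succ_iff.1 i.2
  have hj : (j : ℕ) ≤ 2 ^ M := Nat.lt_succ_iff.1 j.2
  have hij : (i : ℕ) < j := hlt
  have hiZ : ((i : ℕ) : ℤ) ≤ 2 ^ M := by exact_mod_cast hi
  have hjZ : ((j : ℕ) : ℤ) ≤ 2 ^ M := by exact_mod_cast hj
  obtain ⟨d, hd⟩ : ∃ d : ℕ, (j : ℕ) = i + d := ⟨j - i, by omega⟩
  have hd0 : 0 < d := by omega
  have hd1 : d ≤ 2 ^ M := by omega
  have hst : (fun l : Fin M => a (u + (i : ℕ) - 1 - (l : ℕ))) =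
      fun l : Fin M => a (u + (i : ℕ) + d - 1 - (l : ℕ)) := by
    funext l
    have h1 := congrFun hS l
    have hl : (l : ℕ) < M := l.2
    have hb : decide (a (u + (i : ℕ) - 1 - (l : ℕ)) = 1) =
        decide (a (u + (j : ℕ) - 1 - (l : ℕ)) = 1) := h1
    have e : u + ((j : ℕ) : ℤ) - 1 - (l : ℕ) = u + (i : ℕ) + d - 1 - (l : ℕ) := by
      rw [hd]; push_cast; ring
    rw [e, decide_eq_decide] at hb
    have hA := hpm (u + (i : ℕ) - 1 - (l : ℕ)) (by omega) (by omega)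
    have hB := hpm (u + (i : ℕ) + d - 1 - (l : ℕ)) (by omega) (by
      have : ((j : ℕ) : ℤ) = i + d := by rw [hd]; push_cast; ring
      omega)
    rcases hA with hA | hA
    · rw [hA, hb.1 hA]
    · rcases hB with hB | hB
      · rw [hb.2 hB, hB]
      · rw [hA, hB]
  obtain ⟨m, hm⟩ := Nat.dvd_factorial hd0 hd1
  rw [hm, mul_comm] at hkv ⊢
  exact PER_mult hrule (u + (i : ℕ)) d (by omega) hst m k (by omega) hkv

theorem RUN_mem (M J N : ℕ) (Φ : (Fin M → ℝ) → ℝ) (a : ℤ → ℝ) (k₁ k₂ : ℤ)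
    (h1 : 0 ≤ k₁) (h2 : k₂ ≤ N)
    (hpm : ∀ k : ℤ, 0 ≤ k → k < N → a k = 1 ∨ a k = -1) (Bad : Finset ℤ)
    (hrule : ∀ k : ℤ, k₁ + M ≤ k → k < k₂ → k ∉ Bad →
      a k = Φ (fun j : Fin M => a (k - 1 - (j : ℕ)))) (k : ℤ)
    (c1 : k₁ + M + 2 ^ M ≤ k) (c2 : k + (J : ℤ) * ((2 ^ M).factorial : ℕ) < k₂)
    (c3 : ∀ β ∈ Bad, ¬ (β - (J : ℤ) * ((2 ^ M).factorial : ℕ) ≤ k ∧ k ≤ β + 2 ^ M)) :
    ∀ j : ℕ, j < J → a (k + j * ((2 ^ M).factorial : ℕ)) = a k := by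
  have hper := per_of_rule M Φ a (k - 2 ^ M) (k + (J : ℤ) * ((2 ^ M).factorial : ℕ) + 1)
    (fun l hl hl' => hpm l (by linarith) (by linarith)) (fun l hl hl' => by
      refine hrule l (by linarith) (by linarith) fun hb => c3 l hb ⟨?_, ?_⟩
      · linarith
      · linarith)
  have hq : (0 : ℤ) ≤ ((2 ^ M).factorial : ℕ) := Int.natCast_nonneg _
  intro j
  induction j with
  | zero =>
    intro _
    simp
  | succ j ih =>
    intro hj
    have h3 := ih (by omega)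
    have hjJ : ((j : ℤ) + 1) * ((2 ^ M).factorial : ℕ) ≤ (J : ℤ) * ((2 ^ M).factorial : ℕ) := by
      refine mul_le_mul_of_nonneg_right ?_ hq
      exact_mod_cast hj.le
    have hj0 : (0 : ℤ) ≤ (j : ℤ) * ((2 ^ M).factorial : ℕ) := mul_nonneg (Int.natCast_nonneg _) hq
    have h4 := hper (k + j * ((2 ^ M).factorial : ℕ)) (by linarith) (by linarith)
    have e : k + ((j + 1 : ℕ) : ℤ) * ((2 ^ M).factorial : ℕ)
        = k + j * ((2 ^ M).factorial : ℕ) + ((2 ^ M).factorial : ℕ) := by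
      push_cast
      ring
    rw [e, h4, h3]

/-- (RUN) `k ∈ [k₁, k₂)` is in the filter if `[k - 2^M, k + J q] ⊆ [k₁ + M, k₂)` contains no
element of `Bad` (`per_of_rule` with `u = k - 2^M`, `v = k + J q + 1`).  The other `k` satisfy
`k < k₁ + M + 2^M` or `k₂ ≤ k + J q` or `k ∈ [β - J q, β + 2^M]` for some `β ∈ Bad`. -/
theorem run_count (M J N : ℕ) (hJ : 1 ≤ J) (Φ : (Fin M → ℝ) → ℝ) (a : ℤ → ℝ) (k₁ k₂ : ℤ)
    (h1 : 0 ≤ k₁) (h2 : k₂ ≤ N)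
    (hpm : ∀ k : ℤ, 0 ≤ k → k < N → a k = 1 ∨ a k = -1) (Bad : Finset ℤ)
    (hrule : ∀ k : ℤ, k₁ + M ≤ k → k < k₂ → k ∉ Bad →
      a k = Φ (fun j : Fin M => a (k - 1 - (j : ℕ)))) :
    ((k₂ - k₁ : ℤ) : ℝ)
        - ((2 ^ M + M + J * (2 ^ M).factorial + 1 : ℕ) : ℝ) * ((Bad.card : ℝ) + 2)
      ≤ (((Ico (0 : ℤ) N).filter
          (fun k => ∀ j : ℕ, j < J → a (k + j * ((2 ^ M).factorial : ℕ)) = a k)).card : ℝ) := by
  classical
  have hsub : Ico k₁ k₂ ⊆ ((Ico (0 : ℤ) N).filter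
          (fun k => ∀ j : ℕ, j < J → a (k + j * ((2 ^ M).factorial : ℕ)) = a k))
      ∪ (Ico k₁ (k₁ + ((M + 2 ^ M : ℕ) : ℤ))
        ∪ (Ico (k₂ - ((J * (2 ^ M).factorial : ℕ) : ℤ)) k₂
          ∪ Bad.biUnion fun β => Ico (β - ((J * (2 ^ M).factorial : ℕ) : ℤ))
              (β - ((J * (2 ^ M).factorial : ℕ) : ℤ) + ((J * (2 ^ M).factorial + 2 ^ M + 1 : ℕ) : ℤ)))) := by
    intro k hk
    rw [mem_Ico] at hk
    rw [mem_union, mem_union, mem_union, mem_biUnion, mem_filter]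
    by_cases c1 : k < k₁ + ((M + 2 ^ M : ℕ) : ℤ)
    · exact Or.inr (Or.inl (mem_Ico.2 ⟨hk.1, c1⟩))
    by_cases c2 : k₂ - ((J * (2 ^ M).factorial : ℕ) : ℤ) ≤ k
    · exact Or.inr (Or.inr (Or.inl (mem_Ico.2 ⟨c2, hk.2⟩)))
    by_cases c3 : ∃ β ∈ Bad, k ∈ Ico (β - ((J * (2 ^ M).factorial : ℕ) : ℤ))
              (β - ((J * (2 ^ M).factorial : ℕ) : ℤ) + ((J * (2 ^ M).factorial + 2 ^ M + 1 : ℕ) : ℤ))
    · exact Or.inr (Or.inr (Or.inr c3))
    left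
    push Not at c1 c2 c3
    push_cast at c1 c2
    refine ⟨mem_Ico.2 ⟨by linarith [hk.1], by linarith [hk.2]⟩, ?_⟩
    refine RUN_mem M J N Φ a k₁ k₂ h1 h2 hpm Bad hrule k (by linarith) (by push_cast; linarith) ?_
    rintro β hβ ⟨h5, h6⟩
    refine c3 β hβ (mem_Ico.2 ⟨?_, ?_⟩)
    · push_cast at h5 ⊢
      exact h5
    · push_cast
      linarith
  have hb : (Bad.biUnion fun β => Ico (β - ((J * (2 ^ M).factorial : ℕ) : ℤ))
              (β - ((J * (2 ^ M).factorial : ℕ) : ℤ) + ((J * (2 ^ M).factorial + 2 ^ M + 1 : ℕ) : ℤ))).card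
      ≤ Bad.card * (J * (2 ^ M).factorial + 2 ^ M + 1) := by
    refine card_biUnion_le_card_mul _ _ _ fun β _ => ?_
    rw [Int.card_Ico, add_sub_cancel_left]
    exact le_of_eq (Int.toNat_natCast _)
  have hA : (Ico k₁ (k₁ + ((M + 2 ^ M : ℕ) : ℤ))).card = M + 2 ^ M := by
    rw [Int.card_Ico, add_sub_cancel_left]
    exact Int.toNat_natCast _
  have hB : (Ico (k₂ - ((J * (2 ^ M).factorial : ℕ) : ℤ)) k₂).card = J * (2 ^ M).factorial := by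
    rw [Int.card_Ico, sub_sub_cancel]
    exact Int.toNat_natCast _
  have hC : (k₂ - k₁ : ℤ) ≤ ((Ico k₁ k₂).card : ℤ) := by
    rw [Int.card_Ico]
    exact Int.self_le_toNat _
  have hcard := card_le_card hsub
  have hu1 := card_union_le ((Ico (0 : ℤ) N).filter
          (fun k => ∀ j : ℕ, j < J → a (k + j * ((2 ^ M).factorial : ℕ)) = a k))
      (Ico k₁ (k₁ + ((M + 2 ^ M : ℕ) : ℤ))
        ∪ (Ico (k₂ - ((J * (2 ^ M).factorial : ℕ) : ℤ)) k₂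
          ∪ Bad.biUnion fun β => Ico (β - ((J * (2 ^ M).factorial : ℕ) : ℤ))
              (β - ((J * (2 ^ M).factorial : ℕ) : ℤ) + ((J * (2 ^ M).factorial + 2 ^ M + 1 : ℕ) : ℤ))))
  have hu2 := card_union_le (Ico k₁ (k₁ + ((M + 2 ^ M : ℕ) : ℤ)))
        (Ico (k₂ - ((J * (2 ^ M).factorial : ℕ) : ℤ)) k₂
          ∪ Bad.biUnion fun β => Ico (β - ((J * (2 ^ M).factorial : ℕ) : ℤ))
              (β - ((J * (2 ^ M).factorial : ℕ) : ℤ) + ((J * (2 ^ M).factorial + 2 ^ M + 1 : ℕ) : ℤ)))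
  have hu3 := card_union_le (Ico (k₂ - ((J * (2 ^ M).factorial : ℕ) : ℤ)) k₂)
          (Bad.biUnion fun β => Ico (β - ((J * (2 ^ M).factorial : ℕ) : ℤ))
              (β - ((J * (2 ^ M).factorial : ℕ) : ℤ) + ((J * (2 ^ M).factorial + 2 ^ M + 1 : ℕ) : ℤ)))
  rw [hA] at hu2
  rw [hB] at hu3
  have hnat : (Ico k₁ k₂).card ≤ ((Ico (0 : ℤ) N).filter
          (fun k => ∀ j : ℕ, j < J → a (k + j * ((2 ^ M).factorial : ℕ)) = a k)).card
      + (M + 2 ^ M + (J * (2 ^ M).factorial + Bad.card * (J * (2 ^ M).factorial + 2 ^ M + 1))) := by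
    omega
  have hreal : ((k₂ - k₁ : ℤ) : ℝ) ≤ (((Ico (0 : ℤ) N).filter
          (fun k => ∀ j : ℕ, j < J → a (k + j * ((2 ^ M).factorial : ℕ)) = a k)).card : ℝ)
      + ((M : ℝ) + 2 ^ M + ((J : ℝ) * ((2 ^ M).factorial : ℕ)
        + (Bad.card : ℝ) * ((J : ℝ) * ((2 ^ M).factorial : ℕ) + 2 ^ M + 1))) := by
    have h3 : ((k₂ - k₁ : ℤ) : ℝ) ≤ ((Ico k₁ k₂).card : ℝ) := by exact_mod_cast hC
    refine h3.trans ?_
    exact_mod_cast hnat
  have hM0 : (0 : ℝ) ≤ (M : ℝ) := Nat.cast_nonneg _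
  have hP0 : (0 : ℝ) ≤ 2 ^ M := by positivity
  have hJ0 : (0 : ℝ) ≤ (J : ℝ) * ((2 ^ M).factorial : ℕ) := by positivity
  have hB0 : (0 : ℝ) ≤ (Bad.card : ℝ) := Nat.cast_nonneg _
  push_cast
  push_cast at hreal
  nlinarith [mul_nonneg hM0 hB0]

end Vale.Agent.P110
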