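import Vale.Agent.P110.Defs

/-! P110 modules BESS, WIEN: Bessel's inequality and the Wiener norm. -/

namespace Vale.Agent.P110

open Finset Complex
open scoped Real

theorem BESS_pi : (0 : ℝ) < 2 * π := by positivity

theorem BESS_eq (f : ℝ → ℂ) (k : ℤ) : fc f k = fourierCoeffOn BESS_pi f k := by
  rw [fourierCoeffOn_eq_integral]
  unfold fc
  have h1 : ((1 / (2 * π - 0) : ℝ) : ℂ) = 1 / (2 * (π : ℂ)) := by push_cast; ring
  rw [← h1, ← Complex.real_smul]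
  congr 1
  refine intervalIntegral.integral_congr fun x _ => ?_
  simp only [fourier_coe_apply, smul_eq_mul]
  rw [mul_comm]
  congr 1
  congr 1
  have hpi : (π : ℂ) ≠ 0 := by exact_mod_cast Real.pi_ne_zero
  push_cast
  field_simp
  ring

/-- (BESS) `0 ≤ ∫ ‖f - ∑_{k ∈ K} fc f k e^{ikx}‖^2`. -/
theorem bessel {f : ℝ → ℂ} (hf : Continuous f) (hper : ∀ x, f (x + 2 * π) = f x) {A : ℝ}
    (hA : ∀ x, ‖f x‖ ≤ A) (K : Finset ℤ) : ∑ k ∈ K, ‖fc f k‖ ^ 2 ≤ A ^ 2 := by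
  have hL : MeasureTheory.MemLp f 2 (MeasureTheory.volume.restrict (Set.Ioc 0 (2 * π))) :=
    MeasureTheory.MemLp.of_bound hf.aestronglyMeasurable A
      (Filter.Eventually.of_forall fun x => hA x)
  have hs := hasSum_sq_fourierCoeffOn BESS_pi hL
  have h1 : ∑ k ∈ K, ‖fc f k‖ ^ 2 ≤ (2 * π - 0)⁻¹ • ∫ x in (0 : ℝ)..(2 * π), ‖f x‖ ^ 2 := by
    simp only [BESS_eq]
    exact sum_le_hasSum K (fun _ _ => by positivity) hs
  refine h1.trans ?_
  have h2 : ∫ x in (0 : ℝ)..(2 * π), ‖f x‖ ^ 2 ≤ ∫ _x in (0 : ℝ)..(2 * π), A ^ 2 := by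
    refine intervalIntegral.integral_mono_on BESS_pi.le ?_ ?_ fun x _ => ?_
    · exact ((hf.norm).pow 2).intervalIntegrable _ _
    · exact continuous_const.intervalIntegrable _ _
    · exact pow_le_pow_left₀ (norm_nonneg _) (hA x) 2
  rw [intervalIntegral.integral_const] at h2
  simp only [smul_eq_mul, sub_zero] at h2 ⊢
  have h3 := mul_le_mul_of_nonneg_left h2 (inv_nonneg.2 BESS_pi.le)
  rwa [inv_mul_cancel_left₀ BESS_pi.ne'] at h3

theorem WIEN_pos (G : Finset ℤ) (hG : ∀ h ∈ G, 0 ≤ h) :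
    ∑ h ∈ G, 1 / (h : ℝ) ^ 2 ≤ π ^ 2 / 6 := by
  have h1 : ∑ h ∈ G, 1 / (h : ℝ) ^ 2 = ∑ n ∈ G.image Int.toNat, 1 / (n : ℝ) ^ 2 := by
    rw [Finset.sum_image]
    · refine Finset.sum_congr rfl fun h hh => ?_
      have := Int.toNat_of_nonneg (hG h hh)
      have h2 : ((h.toNat : ℕ) : ℝ) = (h : ℝ) := by exact_mod_cast congrArg (fun z : ℤ => (z : ℝ)) this
      rw [h2]
    · intro x hx y hy hxy
      have e1 := Int.toNat_of_nonneg (hG x hx)
      have e2 := Int.toNat_of_nonneg (hG y hy)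
      rw [← e1, ← e2, hxy]
  rw [h1]
  exact sum_le_hasSum _ (fun _ _ => by positivity) hasSum_zeta_two

theorem WIEN_sq (F : Finset ℤ) : ∑ h ∈ F, 1 / (h : ℝ) ^ 2 ≤ 4 := by
  rw [← Finset.sum_filter_add_sum_filter_not F (fun h => 0 ≤ h)]
  have h1 := WIEN_pos (F.filter fun h => 0 ≤ h) (fun h hh => (Finset.mem_filter.1 hh).2)
  have h2 := WIEN_pos ((F.filter fun h => ¬ 0 ≤ h).image (fun h => -h)) (fun h hh => by
    obtain ⟨x, hx, rfl⟩ := Finset.mem_image.1 hh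
    have := (Finset.mem_filter.1 hx).2
    omega)
  rw [Finset.sum_image (fun x _ y _ h => neg_injective h)] at h2
  simp only [Int.cast_neg, neg_sq] at h2
  have h3 : π < 3.15 := Real.pi_lt_d2
  have h4 : π ^ 2 < 3.15 ^ 2 := by
    exact pow_lt_pow_left₀ h3 Real.pi_pos.le (by norm_num)
  norm_num at h4
  linarith

theorem WIEN_deriv {f f' : ℝ → ℂ} (hf : ∀ x, HasDerivAt f (f' x) x) (hf' : Continuous f')
    (hper : ∀ x, f (x + 2 * π) = f x) {h : ℤ} (hh : h ≠ 0) :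
    ‖fc f h‖ = ‖fc f' h‖ * (1 / |(h : ℝ)|) := by
  have h1 := fourierCoeffOn_of_hasDerivAt BESS_pi hh (fun x _ => hf x)
    (hf'.intervalIntegrable _ _)
  have h2 : f (2 * π) - f 0 = 0 := by
    have := hper 0
    rw [zero_add] at this
    rw [this, sub_self]
  rw [h2, mul_zero, zero_sub, ← BESS_eq, ← BESS_eq] at h1
  have hpi : (π : ℂ) ≠ 0 := by exact_mod_cast Real.pi_ne_zero
  have hC : (h : ℂ) ≠ 0 := by exact_mod_cast hh
  have h3 : fc f h = fc f' h * (1 / (I * (h : ℂ))) := by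
    rw [h1]
    push_cast
    field_simp
    ring
  rw [h3, norm_mul, norm_div, norm_mul, Complex.norm_I, one_mul, norm_one]
  congr 2
  rw [Complex.norm_intCast]

/-- (WIEN) `fc f' h = i h fc f h` (integration by parts), `bessel` for `f'`, Cauchy-Schwarz and
`∑_{h ≠ 0} 1/h^2 ≤ 4`. -/
theorem wiener {f f' : ℝ → ℂ} (hf : ∀ x, HasDerivAt f (f' x) x) (hf' : Continuous f')
    (hper : ∀ x, f (x + 2 * π) = f x) {A₀ A₁ : ℝ} (h0 : ∀ x, ‖f x‖ ≤ A₀) (h1 : ∀ x, ‖f' x‖ ≤ A₁)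
    (F : Finset ℤ) : ∑ h ∈ F, ‖fc f h‖ ≤ A₀ + 2 * A₁ := by
  have hfc : Continuous f := continuous_iff_continuousAt.2 fun x => (hf x).continuousAt
  have hA0 : 0 ≤ A₀ := (norm_nonneg _).trans (h0 0)
  have hA1 : 0 ≤ A₁ := (norm_nonneg _).trans (h1 0)
  have hper' : ∀ x, f' (x + 2 * π) = f' x := by
    intro x
    have e1 : HasDerivAt (fun y => f (y + 2 * π)) (f' (x + 2 * π)) x :=
      (hf (x + 2 * π)).comp_add_const x (2 * π)
    have e2 : (fun y => f (y + 2 * π)) = f := funext hper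
    rw [e2] at e1
    exact e1.unique (hf x)
  have hz : ‖fc f 0‖ ≤ A₀ := by
    have := bessel hfc hper h0 {0}
    rw [Finset.sum_singleton] at this
    exact le_of_sq_le_sq this hA0
  have hb := bessel hf' hper' h1 (F.erase 0)
  have hcs := Finset.sum_mul_sq_le_sq_mul_sq (F.erase 0) (fun h => ‖fc f' h‖)
    (fun h => 1 / |(h : ℝ)|)
  have hs : ∑ h ∈ F.erase 0, (1 / |(h : ℝ)|) ^ 2 ≤ 4 := by
    refine le_trans (le_of_eq ?_) (WIEN_sq (F.erase 0))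
    refine Finset.sum_congr rfl fun h _ => ?_
    rw [div_pow, one_pow, sq_abs]
  have hr : ∑ h ∈ F.erase 0, ‖fc f h‖ ≤ 2 * A₁ := by
    have e1 : ∑ h ∈ F.erase 0, ‖fc f h‖ = ∑ h ∈ F.erase 0, ‖fc f' h‖ * (1 / |(h : ℝ)|) :=
      Finset.sum_congr rfl fun h hh => WIEN_deriv hf hf' hper (Finset.ne_of_mem_erase hh)
    rw [e1]
    refine le_of_sq_le_sq (hcs.trans ?_) (by positivity)
    calc (∑ h ∈ F.erase 0, ‖fc f' h‖ ^ 2) * ∑ h ∈ F.erase 0, (1 / |(h : ℝ)|) ^ 2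
        ≤ A₁ ^ 2 * 4 := mul_le_mul hb hs (Finset.sum_nonneg fun _ _ => by positivity)
          (by positivity)
      _ = (2 * A₁) ^ 2 := by ring
  have hsub : F ⊆ insert 0 (F.erase 0) := by
    intro x hx
    by_cases h : x = 0
    · simp [h]
    · simp [h, hx]
  calc ∑ h ∈ F, ‖fc f h‖ ≤ ∑ h ∈ insert 0 (F.erase 0), ‖fc f h‖ :=
        Finset.sum_le_sum_of_subset_of_nonneg hsub fun _ _ _ => norm_nonneg _
    _ = ‖fc f 0‖ + ∑ h ∈ F.erase 0, ‖fc f h‖ := Finset.sum_insert (Finset.notMem_erase _ _)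
    _ ≤ A₀ + 2 * A₁ := add_le_add hz hr

end Vale.Agent.P110
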