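import Vale.Agent.P110.Poly
import Vale.Agent.P110.Bmp
import Vale.Agent.P110.Wien

/-! P110 modules CONV, DECAY, PRED: the predictor. -/

namespace Vale.Agent.P110

open Finset Complex
open scoped Real

private theorem CONV_orth (k : ℤ) :
    (1 / (2 * (π : ℂ))) * ∫ x in (0 : ℝ)..(2 * π), exp (-(I * k * x)) = if k = 0 then 1 else 0 := by
  have hpi : (2 * (π : ℂ)) ≠ 0 := by
    have := Real.pi_ne_zero
    exact mul_ne_zero two_ne_zero (Complex.ofReal_ne_zero.2 this)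
  by_cases hk : k = 0
  · subst hk
    rw [if_pos rfl]
    have h1 : ∀ x : ℝ, exp (-(I * ((0 : ℤ) : ℂ) * (x : ℂ))) = 1 := by
      intro x
      rw [Int.cast_zero, mul_zero, zero_mul, neg_zero, Complex.exp_zero]
    simp only [h1]
    rw [intervalIntegral.integral_const, sub_zero, Complex.real_smul, mul_one]
    push_cast
    exact one_div_mul_cancel hpi
  · rw [if_neg hk]
    have hc : -(I * (k : ℂ)) ≠ 0 := neg_ne_zero.2 (mul_ne_zero I_ne_zero (Int.cast_ne_zero.2 hk))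
    have h1 : ∀ x : ℝ, exp (-(I * (k : ℂ) * (x : ℂ))) = exp (-(I * (k : ℂ)) * (x : ℂ)) := by
      intro x
      rw [neg_mul]
    simp only [h1]
    rw [integral_exp_mul_complex hc]
    have h2 : exp (-(I * (k : ℂ)) * ((2 * π : ℝ) : ℂ)) = 1 := by
      rw [Complex.exp_eq_one_iff]
      refine ⟨-k, ?_⟩
      push_cast
      ring
    rw [h2, Complex.ofReal_zero, mul_zero, Complex.exp_zero, sub_self, zero_div, mul_zero]

/-- (CONV) For a polynomial `q` and continuous `φ`: `fc` of `q(e^{ix}) (1 - φ x)` at `h` is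
`q.coeff h - ∑_j q.coeff j * fc φ (h - j)`. -/
theorem fc_poly (q : Polynomial ℂ) {φ : ℝ → ℝ} (hφ : Continuous φ) (h : ℤ) :
    fc (fun x => q.eval (exp (I * x)) * (1 - (φ x : ℂ))) h =
      (if 0 ≤ h then q.coeff h.toNat else 0)
        - ∑ j ∈ range (q.natDegree + 1), q.coeff j * fc (fun x => (φ x : ℂ)) (h - j) := by
  have e1 : ∀ x : ℝ, q.eval (exp (I * x)) * (1 - (φ x : ℂ)) * exp (-(I * h * x)) =
      ∑ j ∈ range (q.natDegree + 1), (q.coeff j * exp (-(I * ((h - j : ℤ) : ℂ) * x)) -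
        q.coeff j * ((φ x : ℂ) * exp (-(I * ((h - j : ℤ) : ℂ) * x)))) := by
    intro x
    rw [Polynomial.eval_eq_sum_range, Finset.sum_mul, Finset.sum_mul]
    refine Finset.sum_congr rfl fun j _ => ?_
    have e2 : exp (-(I * ((h - j : ℤ) : ℂ) * x)) = exp (I * x) ^ j * exp (-(I * h * x)) := by
      rw [← Complex.exp_nat_mul, ← Complex.exp_add]
      congr 1
      push_cast
      ring
    rw [e2]
    ring
  have c1 : ∀ j : ℕ, Continuous fun x : ℝ => q.coeff j * exp (-(I * ((h - j : ℤ) : ℂ) * x)) := by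
    intro j
    fun_prop
  have c2 : ∀ j : ℕ, Continuous fun x : ℝ =>
      q.coeff j * ((φ x : ℂ) * exp (-(I * ((h - j : ℤ) : ℂ) * x))) := by
    intro j
    fun_prop
  have e3 : fc (fun x => q.eval (exp (I * x)) * (1 - (φ x : ℂ))) h =
      ∑ j ∈ range (q.natDegree + 1),
        (q.coeff j * ((1 / (2 * (π : ℂ))) * ∫ x in (0 : ℝ)..(2 * π), exp (-(I * ((h - j : ℤ) : ℂ) * x))) -
          q.coeff j * fc (fun x => (φ x : ℂ)) (h - j)) := by
    unfold fc
    simp only [e1]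
    have c3 : ∀ j : ℕ, Continuous fun x : ℝ => q.coeff j * exp (-(I * ((h - j : ℤ) : ℂ) * x)) -
        q.coeff j * ((φ x : ℂ) * exp (-(I * ((h - j : ℤ) : ℂ) * x))) := fun j => (c1 j).sub (c2 j)
    rw [intervalIntegral.integral_finsetSum
      (fun j _ => (c3 j).intervalIntegrable _ _), Finset.mul_sum]
    refine Finset.sum_congr rfl fun j _ => ?_
    rw [intervalIntegral.integral_sub ((c1 j).intervalIntegrable _ _)
      ((c2 j).intervalIntegrable _ _), intervalIntegral.integral_const_mul,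
      intervalIntegral.integral_const_mul]
    ring
  rw [e3, Finset.sum_sub_distrib]
  congr 1
  have e4 : ∀ j ∈ range (q.natDegree + 1), q.coeff j * ((1 / (2 * (π : ℂ))) *
      ∫ x in (0 : ℝ)..(2 * π), exp (-(I * ((h - j : ℤ) : ℂ) * x))) =
      if (h - j : ℤ) = 0 then q.coeff j else 0 := by
    intro j _
    rw [CONV_orth, mul_ite, mul_one, mul_zero]
  rw [Finset.sum_congr rfl e4]
  by_cases hh : 0 ≤ h
  · rw [if_pos hh]
    obtain ⟨m, rfl⟩ := Int.eq_ofNat_of_zero_le hh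
    rw [Int.toNat_natCast]
    have e5 : ∀ j ∈ range (q.natDegree + 1), (if ((m : ℤ) - j : ℤ) = 0 then q.coeff j else 0) =
        if m = j then q.coeff j else 0 := by
      intro j _
      by_cases hj : m = j
      · rw [if_pos hj, if_pos (by omega)]
      · rw [if_neg hj, if_neg (by omega)]
    rw [Finset.sum_congr rfl e5, Finset.sum_ite_eq]
    by_cases hm : m ∈ range (q.natDegree + 1)
    · rw [if_pos hm]
    · rw [if_neg hm]
      rw [Finset.mem_range, not_lt] at hm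
      exact (Polynomial.coeff_eq_zero_of_natDegree_lt (by omega)).symm
  · rw [if_neg hh]
    refine Finset.sum_eq_zero fun j _ => ?_
    rw [if_neg (by omega)]

private theorem DECAY_exp (x : ℝ) :
    HasDerivAt (fun x : ℝ => exp (I * x)) (exp (I * x) * I) x := by
  have h := ((hasDerivAt_id x).ofReal_comp.const_mul I).cexp
  simpa using h

private theorem DECAY_norm_exp (x : ℝ) : ‖exp (I * x)‖ = 1 := by
  rw [mul_comm]
  exact Complex.norm_exp_ofReal_mul_I x

private theorem DECAY_bound (P : Polynomial ℂ) :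
    ∃ B : ℝ, 0 ≤ B ∧ ∀ x : ℝ, ‖P.eval (exp (I * x))‖ ≤ B := by
  have hK : IsCompact (Metric.sphere (0 : ℂ) 1) := isCompact_sphere 0 1
  obtain ⟨C, hC⟩ := hK.exists_bound_of_continuousOn (f := fun z => P.eval z)
    P.continuous.continuousOn
  refine ⟨|C|, abs_nonneg C, fun x => (hC _ ?_).trans (le_abs_self C)⟩
  rw [mem_sphere_zero_iff_norm]
  exact DECAY_norm_exp x

private theorem DECAY_small (B Λ η : ℝ) (hη : 0 < η) :
    ∃ m : ℕ, ((m : ℝ) + 1) * (1 / 2) ^ m * B + (1 / 2) ^ (m + 1) * Λ ≤ η ∧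
      (1 / 2 : ℝ) ^ (m + 1) ≤ η := by
  have h1 : Filter.Tendsto (fun m : ℕ => (m : ℝ) * (1 / 2 : ℝ) ^ m) Filter.atTop (nhds 0) :=
    tendsto_self_mul_const_pow_of_lt_one (by norm_num) (by norm_num)
  have h2 : Filter.Tendsto (fun m : ℕ => (1 / 2 : ℝ) ^ m) Filter.atTop (nhds 0) :=
    tendsto_pow_atTop_nhds_zero_of_lt_one (by norm_num) (by norm_num)
  have h3 : Filter.Tendsto (fun m : ℕ => (1 / 2 : ℝ) ^ (m + 1)) Filter.atTop (nhds 0) :=
    h2.comp (Filter.tendsto_add_atTop_nat 1)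
  have h4 : Filter.Tendsto (fun m : ℕ => ((m : ℝ) + 1) * (1 / 2 : ℝ) ^ m * B +
      (1 / 2 : ℝ) ^ (m + 1) * Λ) Filter.atTop (nhds 0) := by
    have h5 := ((h1.add h2).mul_const B).add (h3.mul_const Λ)
    simp only [add_zero, zero_mul] at h5
    refine h5.congr (fun m => ?_)
    ring
  obtain ⟨m, hm⟩ := ((h4.eventually (ge_mem_nhds hη)).and (h3.eventually (ge_mem_nhds hη))).exists
  exact ⟨m, hm.1, hm.2⟩

/-- (DECAY) `f_n(x) = S(e^{ix})^n (1 - φ x)` has `‖f_n‖ ≤ 2^{-n}` and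
`‖f_n'‖ ≤ Λ 2^{-n} + n 2^{-(n-1)} B`, `B` a bound of `(S(e^{ix}))'`: both tend to `0`. -/
theorem decay {S : Polynomial ℂ} {φ φ' : ℝ → ℝ} {Λ : ℝ} (hd : ∀ x, HasDerivAt φ (φ' x) x)
    (hc : Continuous φ') (hΛ : ∀ x, |φ' x| ≤ Λ) (h01 : ∀ x, 0 ≤ φ x ∧ φ x ≤ 1)
    (hS : ∀ x : ℝ, φ x ≠ 1 → ‖S.eval (exp (I * x))‖ ≤ 1 / 2) (η : ℝ) (hη : 0 < η) :
    ∃ (n : ℕ) (f' : ℝ → ℂ), Continuous f' ∧
      (∀ x, HasDerivAt (fun x : ℝ => (S ^ n).eval (exp (I * x)) * (1 - (φ x : ℂ))) (f' x) x) ∧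
      (∀ x, ‖f' x‖ ≤ η) ∧ ∀ x : ℝ, ‖(S ^ n).eval (exp (I * x)) * (1 - (φ x : ℂ))‖ ≤ η := by
  obtain ⟨B, hB0, hB⟩ := DECAY_bound (Polynomial.derivative S)
  obtain ⟨m, hm1, hm2⟩ := DECAY_small B Λ η hη
  have hφc : Continuous φ := continuous_iff_continuousAt.2 fun x => (hd x).continuousAt
  have hcexp : Continuous (fun x : ℝ => exp (I * x)) := by fun_prop
  have hφ1 : ∀ x, φ x = 1 → φ' x = 0 := by
    intro x hx
    refine IsLocalMax.hasDerivAt_eq_zero (f := φ) (a := x) ?_ (hd x)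
    refine Filter.Eventually.of_forall (fun y => ?_)
    rw [hx]
    exact (h01 y).2
  have hn1 : ∀ x, ‖(1 : ℂ) - (φ x : ℂ)‖ ≤ 1 := by
    intro x
    have : (1 : ℂ) - (φ x : ℂ) = ((1 - φ x : ℝ) : ℂ) := by push_cast; ring
    rw [this, Complex.norm_real, Real.norm_eq_abs, abs_le]
    constructor <;> linarith [(h01 x).1, (h01 x).2]
  refine ⟨m + 1, fun x => (((m : ℂ) + 1) * (S.eval (exp (I * x))) ^ m *
      ((Polynomial.derivative S).eval (exp (I * x)) * (exp (I * x) * I))) * (1 - (φ x : ℂ)) +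
      (S.eval (exp (I * x))) ^ (m + 1) * (-(φ' x : ℂ)), ?_, ?_, ?_, ?_⟩
  · have c1 : Continuous (fun x : ℝ => S.eval (exp (I * x))) := S.continuous.comp hcexp
    have c2 : Continuous (fun x : ℝ => (Polynomial.derivative S).eval (exp (I * x))) :=
      (Polynomial.derivative S).continuous.comp hcexp
    fun_prop
  · intro x
    have e1 : HasDerivAt (fun x : ℝ => S.eval (exp (I * x)))
        ((Polynomial.derivative S).eval (exp (I * x)) * (exp (I * x) * I)) x :=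
      HasDerivAt.comp (h₂ := fun z => S.eval z) x (S.hasDerivAt (exp (I * x))) (DECAY_exp x)
    have e2 := e1.pow (m + 1)
    have e3 : HasDerivAt (fun x : ℝ => (1 : ℂ) - (φ x : ℂ)) (-(φ' x : ℂ)) x :=
      ((hd x).ofReal_comp).const_sub 1
    have e4 := e2.mul e3
    have e5 : (fun x : ℝ => (S ^ (m + 1)).eval (exp (I * x)) * (1 - (φ x : ℂ))) =
        ((fun x : ℝ => S.eval (exp (I * x))) ^ (m + 1)) * fun x : ℝ => (1 : ℂ) - (φ x : ℂ) := by
      funext y
      simp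
    rw [e5]
    refine e4.congr_deriv ?_
    simp
  · intro x
    dsimp only
    by_cases hx : φ x = 1
    · rw [hφ1 x hx, hx]
      simp [hη.le]
    · have hs := hS x hx
      refine (norm_add_le _ _).trans (le_trans (add_le_add ?_ ?_) hm1)
      · rw [norm_mul, norm_mul, norm_mul, norm_mul, norm_mul, norm_pow, DECAY_norm_exp,
          Complex.norm_I]
        have h1 : ‖(m : ℂ) + 1‖ = (m : ℝ) + 1 := by
          have : ((m : ℂ) + 1) = ((m + 1 : ℕ) : ℂ) := by push_cast; rfl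
          rw [this, Complex.norm_natCast]
          push_cast
          rfl
        rw [h1]
        have h2 : ‖S.eval (exp (I * x))‖ ^ m ≤ (1 / 2) ^ m :=
          pow_le_pow_left₀ (norm_nonneg _) hs m
        calc ((m : ℝ) + 1) * ‖S.eval (exp (I * x))‖ ^ m *
              (‖(Polynomial.derivative S).eval (exp (I * x))‖ * (1 * 1)) * ‖(1 : ℂ) - (φ x : ℂ)‖
            ≤ ((m : ℝ) + 1) * (1 / 2) ^ m * (B * (1 * 1)) * 1 := by
              gcongr
              · exact hB x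
              · exact hn1 x
          _ = ((m : ℝ) + 1) * (1 / 2) ^ m * B := by ring
      · rw [norm_mul, norm_pow, norm_neg, Complex.norm_real, Real.norm_eq_abs]
        exact mul_le_mul (pow_le_pow_left₀ (norm_nonneg _) hs _) (hΛ x) (abs_nonneg _)
          (by positivity)
  · intro x
    by_cases hx : φ x = 1
    · rw [hx]
      simp [hη.le]
    · rw [Polynomial.eval_pow, norm_mul, norm_pow]
      calc ‖S.eval (exp (I * x))‖ ^ (m + 1) * ‖(1 : ℂ) - (φ x : ℂ)‖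
          ≤ (1 / 2) ^ (m + 1) * 1 :=
            mul_le_mul (pow_le_pow_left₀ (norm_nonneg _) (hS x hx) _) (hn1 x) (norm_nonneg _)
              (by positivity)
        _ ≤ η := by rw [mul_one]; exact hm2

theorem PRED_conv (q : Polynomial ℂ) (N : ℕ) (a : ℤ → ℝ)
    (ha : ∀ k : ℤ, k < 0 ∨ (N : ℤ) ≤ k → a k = 0) (k : ℤ) :
    ∑ j ∈ range (q.natDegree + 1), q.coeff j * (a (k - j) : ℂ)
      = ∑ l ∈ Ico (0 : ℤ) N, (a l : ℂ) * (if 0 ≤ k - l then q.coeff (k - l).toNat else 0) := by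
  have h1 : ∀ m : ℤ, (a m : ℂ) = ∑ l ∈ Ico (0 : ℤ) N, if l = m then (a l : ℂ) else 0 := by
    intro m
    rw [Finset.sum_ite_eq']
    split
    · rfl
    · rename_i h
      rw [Finset.mem_Ico, not_and_or, not_le, not_lt] at h
      rw [ha m h, Complex.ofReal_zero]
  have h2 : ∀ j ∈ range (q.natDegree + 1), q.coeff j * (a (k - j) : ℂ)
      = ∑ l ∈ Ico (0 : ℤ) N, q.coeff j * (if l = k - j then (a l : ℂ) else 0) := by
    intro j _
    rw [h1 (k - j), Finset.mul_sum]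
  rw [Finset.sum_congr rfl h2, Finset.sum_comm]
  refine Finset.sum_congr rfl fun l _ => ?_
  have h3 : ∀ j ∈ range (q.natDegree + 1), q.coeff j * (if l = k - j then (a l : ℂ) else 0)
      = (a l : ℂ) * (if ((j : ℕ) : ℤ) = k - l then q.coeff j else 0) := by
    intro j _
    by_cases h : l = k - j
    · rw [if_pos h, if_pos (by omega)]
      ring
    · rw [if_neg h, if_neg (by omega), mul_zero, mul_zero]
  rw [Finset.sum_congr rfl h3, ← Finset.mul_sum]
  congr 1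
  by_cases h0 : 0 ≤ k - l
  · rw [if_pos h0]
    have h4 : ∀ j ∈ range (q.natDegree + 1), (if ((j : ℕ) : ℤ) = k - l then q.coeff j else 0)
        = if (k - l).toNat = j then q.coeff j else 0 := by
      intro j _
      by_cases h : ((j : ℕ) : ℤ) = k - l
      · rw [if_pos h, if_pos (by omega)]
      · rw [if_neg h, if_neg (by omega)]
    rw [Finset.sum_congr rfl h4, Finset.sum_ite_eq]
    split
    · rfl
    · rename_i h
      rw [Finset.mem_range, not_lt] at h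
      exact (Polynomial.coeff_eq_zero_of_natDegree_lt (by omega)).symm
  · rw [if_neg h0]
    refine Finset.sum_eq_zero fun j _ => ?_
    rw [if_neg (by omega)]

/-- PRED: the convolution with the Fourier coefficients of `φ` -/
theorem PRED_gh (q : Polynomial ℂ) (φ : ℝ → ℝ) (N : ℕ) (a : ℤ → ℝ) (k : ℤ) :
    ∑ j ∈ range (q.natDegree + 1), q.coeff j * gh φ N a (k - j)
      = ∑ l ∈ Ico (0 : ℤ) N, (a l : ℂ) *
        ∑ j ∈ range (q.natDegree + 1), q.coeff j * fc (fun x => (φ x : ℂ)) (k - l - j) := by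
  unfold gh
  simp only [Finset.mul_sum]
  rw [Finset.sum_comm]
  refine Finset.sum_congr rfl fun l _ => Finset.sum_congr rfl fun j _ => ?_
  have e : k - (j : ℤ) - l = k - l - j := by ring
  rw [e]
  ring

/-- (PRED) From `exists_bump`, `exists_S`, `decay` (`η = 1/12`), `wiener`, `fc_poly`;
`Q j = (S^n).coeff j`, `M = (S^n).natDegree`. -/
theorem exists_predictor (s t : ℝ) (hst : s < t) :
    ∃ (M : ℕ) (Q : ℕ → ℂ) (φ : ℝ → ℝ) (Λ : ℝ), Q 0 = 1 ∧ 0 < Λ ∧ Continuous φ ∧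
      (∀ x, φ (x + 2 * π) = φ x) ∧ (∀ x, 0 ≤ φ x ∧ φ x ≤ 1) ∧
      (∀ x y, |φ x - φ y| ≤ Λ * |x - y|) ∧
      (∀ x, φ x ≠ 0 → ∃ m : ℤ, x + 2 * π * m ∈ Set.Ioo s t) ∧
      ∀ (N : ℕ) (a : ℤ → ℝ), (∀ k, |a k| ≤ 1) → (∀ k : ℤ, k < 0 ∨ (N : ℤ) ≤ k → a k = 0) →
        ∀ k : ℤ, ‖∑ j ∈ range (M + 1), Q j * (a (k - j) : ℂ)
          - ∑ j ∈ range (M + 1), Q j * gh φ N a (k - j)‖ ≤ 1 / 4 := by
  obtain ⟨θ₀, a', Λ, φ, φ', ha0, ha4, hΛ, hd, hc, hb, hper, h01, h1, hsupp⟩ := exists_bump s t hst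
  obtain ⟨S, hS0, hS⟩ := exists_S θ₀ a' ha0 ha4
  obtain ⟨n, f', hf'c, hf', hf'b, hfb⟩ := decay hd hc hb h01
    (fun x hx => hS x (le_of_not_ge fun h => hx (h1 x h))) (1 / 12) (by norm_num)
  have hφc : Continuous φ := continuous_iff_continuousAt.mpr fun x => (hd x).continuousAt
  refine ⟨(S ^ n).natDegree, fun j => (S ^ n).coeff j, φ, Λ, ?_, hΛ, hφc, hper, h01, ?_, hsupp, ?_⟩
  · change (S ^ n).coeff 0 = 1
    rw [Polynomial.coeff_zero_eq_eval_zero, Polynomial.eval_pow, hS0, one_pow]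
  · intro x y
    have h2 := Convex.norm_image_sub_le_of_norm_hasDerivWithin_le (f := φ) (f' := φ') (C := Λ)
      (s := Set.univ) (x := y) (y := x) (fun z _ => (hd z).hasDerivWithinAt)
      (fun z _ => hb z) convex_univ (Set.mem_univ _) (Set.mem_univ _)
    exact h2
  · intro N a hab ha k
    change ‖∑ j ∈ range ((S ^ n).natDegree + 1), (S ^ n).coeff j * (a (k - j) : ℂ)
          - ∑ j ∈ range ((S ^ n).natDegree + 1), (S ^ n).coeff j * gh φ N a (k - j)‖ ≤ 1 / 4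
    rw [PRED_conv (S ^ n) N a ha k, PRED_gh, ← Finset.sum_sub_distrib]
    have h3 : ∀ l ∈ Ico (0 : ℤ) N, (a l : ℂ) * (if 0 ≤ k - l then (S ^ n).coeff (k - l).toNat else 0)
        - (a l : ℂ) * ∑ j ∈ range ((S ^ n).natDegree + 1), (S ^ n).coeff j *
          fc (fun x => (φ x : ℂ)) (k - l - j)
        = (a l : ℂ) * fc (fun x => (S ^ n).eval (exp (I * x)) * (1 - (φ x : ℂ))) (k - l) := by
      intro l _
      rw [fc_poly (S ^ n) hφc (k - l)]
      ring
    rw [Finset.sum_congr rfl h3]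
    have hperf : ∀ x : ℝ, (S ^ n).eval (exp (I * ((x + 2 * π : ℝ) : ℂ)))
        * (1 - (φ (x + 2 * π) : ℂ)) = (S ^ n).eval (exp (I * x)) * (1 - (φ x : ℂ)) := by
      intro x
      have e1 : exp (I * ((x + 2 * π : ℝ) : ℂ)) = exp (I * x) := by
        have e2 : I * ((x + 2 * π : ℝ) : ℂ) = I * x + 2 * π * I := by
          push_cast
          ring
        rw [e2, Complex.exp_add, Complex.exp_two_pi_mul_I, mul_one]
      rw [e1, hper]
    have hw := wiener (f := fun x : ℝ => (S ^ n).eval (exp (I * x)) * (1 - (φ x : ℂ))) hf' hf'c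
      hperf (A₀ := 1 / 12) (A₁ := 1 / 12) hfb hf'b ((Ico (0 : ℤ) N).image fun l => k - l)
    rw [Finset.sum_image (fun x _ y _ hxy => by
      have : k - x = k - y := hxy
      omega)] at hw
    calc ‖∑ l ∈ Ico (0 : ℤ) N, (a l : ℂ) *
          fc (fun x => (S ^ n).eval (exp (I * x)) * (1 - (φ x : ℂ))) (k - l)‖
        ≤ ∑ l ∈ Ico (0 : ℤ) N, ‖(a l : ℂ) *
          fc (fun x => (S ^ n).eval (exp (I * x)) * (1 - (φ x : ℂ))) (k - l)‖ := norm_sum_le _ _
      _ ≤ ∑ l ∈ Ico (0 : ℤ) N,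
          ‖fc (fun x => (S ^ n).eval (exp (I * x)) * (1 - (φ x : ℂ))) (k - l)‖ := by
          refine Finset.sum_le_sum fun l _ => ?_
          rw [norm_mul, Complex.norm_real]
          exact mul_le_of_le_one_left (norm_nonneg _) (hab l)
      _ ≤ 1 / 12 + 2 * (1 / 12) := hw
      _ = 1 / 4 := by norm_num

end Vale.Agent.P110
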