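import Vale.Agent.P110.Defs

/-! P110 module RULE: small prediction error determines the sign. -/

namespace Vale.Agent.P110

open Finset Complex

/-- (RULE) `a_k + Re (∑_{j=1}^M Q_j a_{k-j})` is at most `9/20` in absolute value. -/
theorem rule_of_small {M : ℕ} {Q : ℕ → ℂ} (hQ : Q 0 = 1) {a : ℤ → ℝ} {k : ℤ}
    (hk : a k = 1 ∨ a k = -1)
    (h : ‖∑ j ∈ range (M + 1), Q j * (a (k - j) : ℂ)‖ ≤ 9 / 20) :
    a k = ruleQ M Q (fun j : Fin M => a (k - 1 - (j : ℕ))) := by
  have h1 : ∑ j ∈ range (M + 1), Q j * (a (k - j) : ℂ) =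
      (∑ j : Fin M, Q (j + 1) * (a (k - 1 - ((j : ℕ) : ℤ)) : ℂ)) + (a k : ℂ) := by
    rw [Finset.sum_range_succ', Finset.sum_range]
    congr 1
    · refine Finset.sum_congr rfl fun j _ => ?_
      have e : k - ((j : ℕ) + 1 : ℕ) = k - 1 - ((j : ℕ) : ℤ) := by
        push_cast
        ring
      rw [e]
    · rw [hQ]
      simp
  rw [h1] at h
  have h2 := (abs_le.1 ((abs_re_le_norm _).trans h))
  rw [add_re, ofReal_re] at h2
  unfold ruleQ
  rcases hk with hk | hk
  · rw [hk] at h2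
    rw [if_pos (by linarith [h2.2]), hk]
  · rw [hk] at h2
    rw [if_neg (by linarith [h2.1]), hk]

end Vale.Agent.P110
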