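import Vale.Agent.P110.Wien

/-! P110 modules SPA, SPB, SPC: spectral gap at the positions which are avoided. -/

namespace Vale.Agent.P110

open Finset Complex
open scoped Real

/-- (SPA) `((1 + cos v)/2)^p = cos (v/2)^{2p} = 4^{-p} ∑_{s ≤ 2p} C(2p, s) e^{i (s - p) v}`. -/
theorem cos_pow_expand (p : ℕ) (v : ℝ) :
    ((((1 + Real.cos v) / 2) ^ p : ℝ) : ℂ) =
      ∑ s ∈ range (2 * p + 1), (((2 * p).choose s : ℂ) / 4 ^ p) *
        exp (I * (((s : ℝ) - p) * v : ℝ)) := by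
  have h1 : (((1 + Real.cos v) / 2 : ℝ) : ℂ) =
      (exp (I * v / 2) + exp (-(I * v / 2))) ^ 2 / 4 := by
    have h2 : exp (I * v / 2) ^ 2 = exp (I * v) := by
      rw [← exp_nat_mul]
      congr 1
      push_cast
      ring
    have h3 : exp (-(I * v / 2)) ^ 2 = exp (-(I * v)) := by
      rw [← exp_nat_mul]
      congr 1
      push_cast
      ring
    have h4 : exp (I * v / 2) * exp (-(I * v / 2)) = 1 := by
      rw [← exp_add, add_neg_cancel, exp_zero]
    have h5 : 2 * cos (v : ℂ) = exp (I * v) + exp (-(I * v)) := by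
      rw [two_cos]
      congr 2 <;> ring
    have h6 : (exp (I * v / 2) + exp (-(I * v / 2))) ^ 2 =
        exp (I * v / 2) ^ 2 + exp (-(I * v / 2)) ^ 2 +
          2 * (exp (I * v / 2) * exp (-(I * v / 2))) := by ring
    rw [h6, h2, h3, h4]
    push_cast
    linear_combination (1 / 4 : ℂ) * h5
  rw [ofReal_pow, h1, div_pow, ← pow_mul, add_pow, sum_div]
  refine sum_congr rfl fun s hs => ?_
  have hs' : s ≤ 2 * p := Nat.lt_succ_iff.1 (mem_range.1 hs)
  have h7 : exp (I * v / 2) ^ s * exp (-(I * v / 2)) ^ (2 * p - s) =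
      exp (I * (((s : ℝ) - p) * v : ℝ)) := by
    rw [← exp_nat_mul, ← exp_nat_mul, ← exp_add]
    congr 1
    rw [Nat.cast_sub hs']
    push_cast
    ring
  rw [h7]
  ring

private lemma SPB_exp_per (k : ℤ) (x : ℝ) :
    exp (I * k * ((x + 2 * π : ℝ) : ℂ)) = exp (I * k * (x : ℂ)) := by
  have e : I * k * ((x + 2 * π : ℝ) : ℂ) = I * k * (x : ℂ) + (k : ℂ) * (2 * π * I) := by
    push_cast
    ring
  rw [e, Complex.exp_add, Complex.exp_int_mul_two_pi_mul_I, mul_one]

private lemma SPB_PP_per (N : ℕ) (b : ℕ → ℂ) (x : ℝ) :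
    PP N b ((x + 2 * π : ℝ) : ℂ) = PP N b (x : ℂ) := by
  unfold PP
  refine Finset.sum_congr rfl fun k _ => ?_
  have h := SPB_exp_per (k : ℤ) x
  rw [Int.cast_natCast] at h
  rw [h]

private lemma SPB_PP_cont (N : ℕ) (b : ℕ → ℂ) : Continuous fun x : ℝ => PP N b (x : ℂ) := by
  unfold PP
  fun_prop

/-- Fourier coefficients of a translate -/
private lemma SPB_shift {F : ℝ → ℂ} (hF : ∀ x, F (x + 2 * π) = F x) (τ : ℝ) (k : ℤ) :
    fc (fun x => F (x + τ)) k = exp (I * (k * τ : ℝ)) * fc F k := by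
  unfold fc
  have h1 : ∀ x : ℝ, F (x + τ) * exp (-(I * k * x))
      = exp (I * (k * τ : ℝ)) * (fun y : ℝ => F y * exp (-(I * k * y))) (x + τ) := by
    intro x
    have e : exp (-(I * k * (x : ℂ)))
        = exp (I * (k * τ : ℝ)) * exp (-(I * k * ((x + τ : ℝ) : ℂ))) := by
      rw [← Complex.exp_add]
      congr 1
      push_cast
      ring
    simp only
    rw [e]
    ring
  have hper : Function.Periodic (fun y : ℝ => F y * exp (-(I * k * y))) (2 * π) := by
    intro y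
    have h2 := SPB_exp_per (-k) y
    have e1 : ∀ y : ℝ, I * ((-k : ℤ) : ℂ) * (y : ℂ) = -(I * k * (y : ℂ)) := by
      intro y
      push_cast
      ring
    rw [e1, e1] at h2
    simp only
    rw [hF y, h2]
  have h3 : ∫ x in (0 : ℝ)..(2 * π), F (x + τ) * exp (-(I * k * x))
      = exp (I * (k * τ : ℝ)) * ∫ x in (0 : ℝ)..(2 * π), F x * exp (-(I * k * x)) := by
    rw [intervalIntegral.integral_congr (g := fun x => exp (I * (k * τ : ℝ)) *
      (fun y : ℝ => F y * exp (-(I * k * y))) (x + τ)) (fun x _ => h1 x),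
      intervalIntegral.integral_const_mul]
    congr 1
    rw [intervalIntegral.integral_comp_add_right (fun y : ℝ => F y * exp (-(I * k * y))) τ]
    have h4 := hper.intervalIntegral_add_eq (0 + τ) 0
    rw [zero_add, zero_add] at h4
    rw [zero_add, add_comm (2 * π) τ]
    exact h4
  rw [h3]
  ring

private lemma SPB_sum {ι : Type} (S : Finset ι) (c : ι → ℂ) (F : ι → ℝ → ℂ)
    (hF : ∀ s ∈ S, Continuous (F s)) (k : ℤ) :
    fc (fun x => ∑ s ∈ S, c s * F s x) k = ∑ s ∈ S, c s * fc (F s) k := by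
  unfold fc
  have h1 : ∀ x : ℝ, (∑ s ∈ S, c s * F s x) * exp (-(I * k * x))
      = ∑ s ∈ S, c s * (F s x * exp (-(I * k * x))) := by
    intro x
    rw [Finset.sum_mul]
    exact Finset.sum_congr rfl fun s _ => by ring
  rw [intervalIntegral.integral_congr (g := fun x => ∑ s ∈ S, c s * (F s x * exp (-(I * k * x))))
    (fun x _ => h1 x), intervalIntegral.integral_finset_sum, Finset.mul_sum]
  · refine Finset.sum_congr rfl fun s _ => ?_
    rw [intervalIntegral.integral_const_mul]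
    ring
  · intro s hs
    apply Continuous.intervalIntegrable
    have := hF s hs
    fun_prop

private lemma SPB_range (N : ℕ) (g : ℤ → ℂ) :
    ∑ l ∈ range N, g (l : ℤ) = ∑ l ∈ Ico (0 : ℤ) N, g l := by
  refine Finset.sum_nbij' (fun n => (n : ℤ)) (fun l => l.toNat) ?_ ?_ ?_ ?_ ?_
  · intro n hn
    rw [Finset.mem_range] at hn
    rw [Finset.mem_Ico]
    omega
  · intro l hl
    rw [Finset.mem_Ico] at hl
    rw [Finset.mem_range]
    omega
  · intro n _
    exact Int.toNat_natCast n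
  · intro l hl
    rw [Finset.mem_Ico] at hl
    exact Int.toNat_of_nonneg hl.1
  · intro n _
    rfl

private lemma SPB_gh (N : ℕ) (a : ℤ → ℝ) {φ : ℝ → ℝ} (hφ : Continuous φ) (k : ℤ) :
    fc (fun x => (φ x : ℂ) * PP N (ac a) (x : ℂ)) k = gh φ N a k := by
  have h1 : (fun x : ℝ => (φ x : ℂ) * PP N (ac a) (x : ℂ))
      = fun x : ℝ => ∑ l ∈ range N, ac a l * ((φ x : ℂ) * exp (I * l * x)) := by
    funext x
    unfold PP
    rw [Finset.mul_sum]
    exact Finset.sum_congr rfl fun l _ => by ring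
  rw [h1, SPB_sum (range N) (fun l => ac a l) (fun l x => (φ x : ℂ) * exp (I * l * x))
    (fun l _ => by fun_prop) k]
  unfold gh
  rw [← SPB_range N (fun l => (a l : ℂ) * fc (fun x => (φ x : ℂ)) (k - l))]
  refine Finset.sum_congr rfl fun l _ => ?_
  unfold ac
  congr 1
  unfold fc
  congr 1
  apply intervalIntegral.integral_congr
  intro x _
  simp only
  rw [mul_assoc, ← Complex.exp_add]
  congr 2
  push_cast
  ring

/-- (SPB) Fourier coefficients of a combination of translates of `φ P`. -/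
theorem fc_translates {N : ℕ} (hN : 0 < N) (a : ℤ → ℝ) {φ : ℝ → ℝ} (hφ : Continuous φ)
    (hper : ∀ x, φ (x + 2 * π) = φ x) (c : ℝ) (p : ℕ) (k : ℤ) :
    fc (fun x => ∑ s ∈ range (2 * p + 1), (((2 * p).choose s : ℂ) / 4 ^ p) *
        exp (-(I * (((s : ℝ) - p) * c : ℝ))) *
        ((φ (x + ((s : ℝ) - p) / N) : ℂ) * PP N (ac a) ((x + ((s : ℝ) - p) / N : ℝ) : ℂ))) k
      = ((((1 + Real.cos ((k : ℝ) / N - c)) / 2) ^ p : ℝ) : ℂ) * gh φ N a k := by
  set F : ℝ → ℂ := fun x => (φ x : ℂ) * PP N (ac a) (x : ℂ) with hFdef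
  have hFc : Continuous F :=
    (Complex.continuous_ofReal.comp hφ).mul (SPB_PP_cont N (ac a))
  have hFp : ∀ x, F (x + 2 * π) = F x := by
    intro x
    simp only [hFdef]
    rw [hper x, SPB_PP_per]
  have h1 := SPB_sum (range (2 * p + 1)) (fun s => (((2 * p).choose s : ℂ) / 4 ^ p) *
        exp (-(I * (((s : ℝ) - p) * c : ℝ)))) (fun s x => F (x + ((s : ℝ) - p) / N))
        (fun s _ => hFc.comp (by fun_prop)) k
  refine h1.trans ?_
  rw [cos_pow_expand, Finset.sum_mul]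
  refine Finset.sum_congr rfl fun s _ => ?_
  rw [SPB_shift hFp, SPB_gh N a hφ k]
  have e : exp (I * (((s : ℝ) - p) * ((k : ℝ) / N - c) : ℝ))
      = exp (-(I * (((s : ℝ) - p) * c : ℝ))) * exp (I * ((k : ℝ) * (((s : ℝ) - p) / N) : ℝ)) := by
    rw [← Complex.exp_add]
    congr 1
    push_cast
    ring
  rw [e]
  ring

theorem SPC_cos_le {v r : ℝ} (hr0 : 0 ≤ r) (h1 : r ≤ |v|) (h2 : |v| ≤ 2 * π - r) :
    Real.cos v ≤ Real.cos r := by
  rw [← Real.cos_abs v]
  rcases le_total |v| π with h | h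
  · exact Real.cos_le_cos_of_nonneg_of_le_pi hr0 h h1
  · have h3 : Real.cos |v| = Real.cos (2 * π - |v|) := by rw [Real.cos_two_pi_sub]
    rw [h3]
    exact Real.cos_le_cos_of_nonneg_of_le_pi hr0 (by linarith) (by linarith)

theorem SPC_norm_exp (t : ℝ) : ‖exp (-(I * (t : ℂ)))‖ = 1 := by
  have : -(I * (t : ℂ)) = ((-t : ℝ) : ℂ) * I := by push_cast; ring
  rw [this, Complex.norm_exp_ofReal_mul_I]

theorem SPC_PP_per (N : ℕ) (a : ℕ → ℂ) (w : ℂ) : PP N a (w + 2 * π) = PP N a w := by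
  unfold PP
  refine sum_congr rfl fun k _ => ?_
  congr 1
  have : I * k * (w + 2 * π) = I * k * w + (k : ℤ) * (2 * π * I) := by push_cast; ring
  rw [this, Complex.exp_add, Complex.exp_int_mul_two_pi_mul_I, mul_one]

theorem SPC_PP_cont (N : ℕ) (a : ℕ → ℂ) : Continuous (PP N a) := by
  unfold PP
  fun_prop

theorem SPC_w_sum (p : ℕ) : ∑ s ∈ range (2 * p + 1), ((2 * p).choose s : ℝ) / 4 ^ p = 1 := by
  rw [← sum_div, ← Nat.cast_sum, Nat.sum_range_choose]
  push_cast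
  rw [pow_mul]
  norm_num

/-- (SPC) `bessel` for the function `G` of `fc_translates`; compare `φ(x + s/N) P(x + s/N)` with
`φ(x) P(x) e^{i s b(x)}`: `‖G x‖ ≤ √N (2 ρ₁^p + 2 Λ p / N + τ)`, `ρ₁ = (1 + cos r)/2` (where
`φ x ≠ 0`: `r ≤ |b - c| ≤ 4 ≤ 2π - r`, so `cos (b - c) ≤ cos r`); and
`(1 + cos (k/N - c))/2 ≥ (1 + cos (r/2))/2` for `k ∈ K`. -/
theorem spec_count {N : ℕ} (hN : 0 < N) {a : ℤ → ℝ} {φ : ℝ → ℝ} {Λ τ c r : ℝ} (p : ℕ)
    (hφ : Continuous φ) (hper : ∀ x, φ (x + 2 * π) = φ x) (h01 : ∀ x, 0 ≤ φ x ∧ φ x ≤ 1)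
    (hΛ : 0 < Λ) (hlip : ∀ x y, |φ x - φ y| ≤ Λ * |x - y|) (hτ : 0 < τ)
    (hP : ∀ x : ℝ, ‖PP N (ac a) x‖ ≤ 2 * Real.sqrt N)
    (hb : ∀ x : ℝ, |bs N (ac a) x| ≤ 3)
    (hloc : ∀ x s : ℝ, |s| ≤ p →
      ‖PP N (ac a) ((x + s / N : ℝ) : ℂ) - exp (I * (s * bs N (ac a) x : ℝ)) * PP N (ac a) x‖
        ≤ τ * Real.sqrt N)
    (hc0 : 0 ≤ c) (hc1 : c ≤ 1) (hr0 : 0 < r) (hr1 : r ≤ 1 / 2)
    (hgap : ∀ x, φ x ≠ 0 → r ≤ |bs N (ac a) x - c|) (K : Finset ℤ)
    (hK : ∀ k ∈ K, |(k : ℝ) / N - c| ≤ r / 2) :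
    ((1 + Real.cos (r / 2)) / 2) ^ (2 * p) * ∑ k ∈ K, ‖gh φ N a k‖ ^ 2
      ≤ N * (2 * ((1 + Real.cos r) / 2) ^ p + 2 * Λ * p / N + τ) ^ 2 := by
  have hN' : (0 : ℝ) < N := by exact_mod_cast hN
  have hsq : Real.sqrt N ^ 2 = N := Real.sq_sqrt hN'.le
  have hs0 : 0 ≤ Real.sqrt N := Real.sqrt_nonneg _
  have hpi := Real.pi_gt_three
  set P : ℂ → ℂ := PP N (ac a) with hPdef
  set G : ℝ → ℂ := fun x => ∑ s ∈ range (2 * p + 1), (((2 * p).choose s : ℂ) / 4 ^ p) *
        exp (-(I * (((s : ℝ) - p) * c : ℝ))) *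
        ((φ (x + ((s : ℝ) - p) / N) : ℂ) * PP N (ac a) ((x + ((s : ℝ) - p) / N : ℝ) : ℂ)) with hG
  have hfc : ∀ k : ℤ, fc G k = ((((1 + Real.cos ((k : ℝ) / N - c)) / 2) ^ p : ℝ) : ℂ) * gh φ N a k :=
    fun k => fc_translates hN a hφ hper c p k
  have hGc : Continuous G := by
    refine continuous_finsetSum _ fun s _ => ?_
    refine continuous_const.mul ((Complex.continuous_ofReal.comp (hφ.comp (by fun_prop))).mul ?_)
    exact (SPC_PP_cont N (ac a)).comp (Complex.continuous_ofReal.comp (by fun_prop))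
  have hGp : ∀ x, G (x + 2 * π) = G x := by
    intro x
    refine sum_congr rfl fun s _ => ?_
    have e1 : x + 2 * π + ((s : ℝ) - p) / N = (x + ((s : ℝ) - p) / N) + 2 * π := by ring
    have e2 : PP N (ac a) ((x + 2 * π + ((s : ℝ) - p) / N : ℝ) : ℂ)
        = PP N (ac a) ((x + ((s : ℝ) - p) / N : ℝ) : ℂ) := by
      rw [← SPC_PP_per N (ac a) ((x + ((s : ℝ) - p) / N : ℝ) : ℂ)]
      congr 1
      push_cast
      ring
    rw [e2, e1, hper]
  have hbound : ∀ x, ‖G x‖ ≤ Real.sqrt N *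
      (2 * ((1 + Real.cos r) / 2) ^ p + 2 * Λ * p / N + τ) := by
    intro x
    set b := bs N (ac a) x with hbdef
    have hexp := cos_pow_expand p (b - c)
    have hdec : G x = (φ x : ℂ) * P x * ((((1 + Real.cos (b - c)) / 2) ^ p : ℝ) : ℂ) +
        ∑ s ∈ range (2 * p + 1), (((2 * p).choose s : ℂ) / 4 ^ p) *
          exp (-(I * (((s : ℝ) - p) * c : ℝ))) *
          (((φ (x + ((s : ℝ) - p) / N) - φ x : ℝ) : ℂ) * P ((x + ((s : ℝ) - p) / N : ℝ) : ℂ)
            + (φ x : ℂ) * (P ((x + ((s : ℝ) - p) / N : ℝ) : ℂ)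
              - exp (I * (((s : ℝ) - p) * b : ℝ)) * P x)) := by
      rw [hexp, mul_sum, ← sum_add_distrib, hG]
      refine sum_congr rfl fun s _ => ?_
      have e3 : exp (I * (((s : ℝ) - p) * (b - c) : ℝ))
          = exp (-(I * (((s : ℝ) - p) * c : ℝ))) * exp (I * (((s : ℝ) - p) * b : ℝ)) := by
        rw [← Complex.exp_add]
        congr 1
        push_cast
        ring
      rw [e3]
      push_cast
      ring
    have hρ0 : 0 ≤ (1 + Real.cos (b - c)) / 2 := by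
      have := Real.neg_one_le_cos (b - c)
      linarith
    have t1 : ‖(φ x : ℂ) * P x * ((((1 + Real.cos (b - c)) / 2) ^ p : ℝ) : ℂ)‖
        ≤ 2 * Real.sqrt N * ((1 + Real.cos r) / 2) ^ p := by
      by_cases h0 : φ x = 0
      · rw [h0]
        have hcr : 0 ≤ (1 + Real.cos r) / 2 := by
          have := Real.neg_one_le_cos r
          linarith
        simp only [Complex.ofReal_zero, zero_mul, norm_zero]
        positivity
      · have h1 : r ≤ |b - c| := hgap x h0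
        have h2 : |b - c| ≤ 2 * π - r := by
          have h3 := hb x
          have h4 : |b - c| ≤ |b| + |c| := abs_sub b c
          rw [abs_of_nonneg hc0] at h4
          linarith
        have h3 := SPC_cos_le hr0.le h1 h2
        have h4 : ((1 + Real.cos (b - c)) / 2) ^ p ≤ ((1 + Real.cos r) / 2) ^ p :=
          pow_le_pow_left₀ hρ0 (by linarith) p
        rw [norm_mul, norm_mul, Complex.norm_real, Complex.norm_real, Real.norm_eq_abs,
          Real.norm_eq_abs, abs_of_nonneg (h01 x).1, abs_of_nonneg (pow_nonneg hρ0 p)]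
        have h5 : φ x * ‖P x‖ ≤ 1 * (2 * Real.sqrt N) :=
          mul_le_mul (h01 x).2 (hP x) (norm_nonneg _) zero_le_one
        calc φ x * ‖P x‖ * ((1 + Real.cos (b - c)) / 2) ^ p
            ≤ (1 * (2 * Real.sqrt N)) * ((1 + Real.cos r) / 2) ^ p :=
              mul_le_mul h5 h4 (pow_nonneg hρ0 p) (by positivity)
          _ = _ := by ring
    have t2 : ‖∑ s ∈ range (2 * p + 1), (((2 * p).choose s : ℂ) / 4 ^ p) *
          exp (-(I * (((s : ℝ) - p) * c : ℝ))) *
          (((φ (x + ((s : ℝ) - p) / N) - φ x : ℝ) : ℂ) * P ((x + ((s : ℝ) - p) / N : ℝ) : ℂ)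
            + (φ x : ℂ) * (P ((x + ((s : ℝ) - p) / N : ℝ) : ℂ)
              - exp (I * (((s : ℝ) - p) * b : ℝ)) * P x))‖
        ≤ Real.sqrt N * (2 * Λ * p / N + τ) := by
      have hterm : ∀ s ∈ range (2 * p + 1), ‖(((2 * p).choose s : ℂ) / 4 ^ p) *
          exp (-(I * (((s : ℝ) - p) * c : ℝ))) *
          (((φ (x + ((s : ℝ) - p) / N) - φ x : ℝ) : ℂ) * P ((x + ((s : ℝ) - p) / N : ℝ) : ℂ)
            + (φ x : ℂ) * (P ((x + ((s : ℝ) - p) / N : ℝ) : ℂ)
              - exp (I * (((s : ℝ) - p) * b : ℝ)) * P x))‖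
          ≤ ((2 * p).choose s : ℝ) / 4 ^ p * (Real.sqrt N * (2 * Λ * p / N + τ)) := by
        intro s hs
        have hs' : s ≤ 2 * p := Nat.lt_succ_iff.1 (mem_range.1 hs)
        have hs'' : (s : ℝ) ≤ 2 * p := by exact_mod_cast hs'
        have hsp : |(s : ℝ) - p| ≤ p := by
          rw [abs_le]
          constructor
          · have : (0:ℝ) ≤ s := Nat.cast_nonneg s
            linarith
          · linarith
        rw [norm_mul, norm_mul, SPC_norm_exp, mul_one]
        have hw : ‖((2 * p).choose s : ℂ) / 4 ^ p‖ = ((2 * p).choose s : ℝ) / 4 ^ p := by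
          rw [norm_div, norm_pow]
          simp
        rw [hw]
        refine mul_le_mul_of_nonneg_left ?_ (by positivity)
        refine (norm_add_le _ _).trans ?_
        rw [norm_mul, norm_mul, Complex.norm_real, Complex.norm_real, Real.norm_eq_abs,
          Real.norm_eq_abs, abs_of_nonneg (h01 x).1]
        have i1 : |φ (x + ((s : ℝ) - p) / N) - φ x| ≤ Λ * (p / N) := by
          refine (hlip _ _).trans ?_
          refine mul_le_mul_of_nonneg_left ?_ hΛ.le
          have : x + ((s : ℝ) - p) / N - x = ((s : ℝ) - p) / N := by ring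
          rw [this, abs_div, abs_of_pos hN']
          exact div_le_div_of_nonneg_right hsp hN'.le
        have i2 := hP (x + ((s : ℝ) - p) / N)
        have i3 := hloc x ((s : ℝ) - p) hsp
        have i4 : |φ (x + ((s : ℝ) - p) / N) - φ x| * ‖P ((x + ((s : ℝ) - p) / N : ℝ) : ℂ)‖
            ≤ Λ * (p / N) * (2 * Real.sqrt N) :=
          mul_le_mul i1 i2 (norm_nonneg _) (by positivity)
        have i5 : φ x * ‖P ((x + ((s : ℝ) - p) / N : ℝ) : ℂ)
              - exp (I * (((s : ℝ) - p) * b : ℝ)) * P x‖ ≤ 1 * (τ * Real.sqrt N) :=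
          mul_le_mul (h01 x).2 i3 (norm_nonneg _) zero_le_one
        calc _ ≤ Λ * (p / N) * (2 * Real.sqrt N) + 1 * (τ * Real.sqrt N) := add_le_add i4 i5
          _ = Real.sqrt N * (2 * Λ * p / N + τ) := by ring
      refine (norm_sum_le_of_le _ hterm).trans ?_
      rw [← sum_mul, SPC_w_sum, one_mul]
    rw [hdec]
    refine (norm_add_le _ _).trans ?_
    calc _ ≤ 2 * Real.sqrt N * ((1 + Real.cos r) / 2) ^ p + Real.sqrt N * (2 * Λ * p / N + τ) :=
          add_le_add t1 t2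
      _ = _ := by ring
  have hB := bessel hGc hGp hbound K
  have hlow : ((1 + Real.cos (r / 2)) / 2) ^ (2 * p) * ∑ k ∈ K, ‖gh φ N a k‖ ^ 2
      ≤ ∑ k ∈ K, ‖fc G k‖ ^ 2 := by
    rw [mul_sum]
    refine sum_le_sum fun k hk => ?_
    rw [hfc k, norm_mul, mul_pow, Complex.norm_real, Real.norm_eq_abs]
    have hcr : 0 ≤ (1 + Real.cos (r / 2)) / 2 := by
      have := Real.neg_one_le_cos (r / 2)
      linarith
    have h1 : Real.cos (r / 2) ≤ Real.cos ((k : ℝ) / N - c) := by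
      rw [← Real.cos_abs ((k : ℝ) / N - c)]
      exact Real.cos_le_cos_of_nonneg_of_le_pi (abs_nonneg _) (by linarith) (hK k hk)
    have h2 : ((1 + Real.cos (r / 2)) / 2) ^ p ≤ ((1 + Real.cos ((k : ℝ) / N - c)) / 2) ^ p :=
      pow_le_pow_left₀ hcr (by linarith) p
    have h3 : ((1 + Real.cos (r / 2)) / 2) ^ (2 * p) = (((1 + Real.cos (r / 2)) / 2) ^ p) ^ 2 := by
      rw [← pow_mul, mul_comm]
    rw [h3]
    refine mul_le_mul_of_nonneg_right ?_ (by positivity)
    refine pow_le_pow_left₀ (by positivity) ?_ 2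
    exact h2.trans (le_abs_self _)
  refine hlow.trans (hB.trans (le_of_eq ?_))
  rw [mul_pow, hsq]

end Vale.Agent.P110
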