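import Vale.Agent.P110.ExpF
import Vale.Agent.P110.Corr
import Vale.Agent.P110.Cnt
import Vale.Agent.P110.Per
import Vale.Agent.P110.Pred
import Vale.Agent.P110.Rule
import Vale.Agent.P110.Spec

/-! P110: assembly (helper68). -/

namespace Vale.Agent.P110

open Finset Complex
open scoped Real

theorem PP_periodic (N : ℕ) (a : ℕ → ℂ) (x : ℝ) (m : ℤ) :
    PP N a ((x + 2 * π * m : ℝ) : ℂ) = PP N a x ∧
      bs N a (x + 2 * π * m) = bs N a x := by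
  have h : ∀ k : ℕ, exp (I * k * ((x + 2 * π * m : ℝ) : ℂ)) = exp (I * k * x) := by
    intro k
    have e : I * k * ((x + 2 * π * m : ℝ) : ℂ) = I * k * x + ((k * m : ℤ) : ℂ) * (2 * π * I) := by
      push_cast; ring
    rw [e, Complex.exp_add, Complex.exp_int_mul_two_pi_mul_I, mul_one]
  have h1 : PP N a ((x + 2 * π * m : ℝ) : ℂ) = PP N a x := by
    unfold PP
    exact Finset.sum_congr rfl fun k _ => by rw [h k]
  refine ⟨h1, ?_⟩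
  unfold bs
  rw [h1]
  congr 3
  exact Finset.sum_congr rfl fun k _ => by rw [h k]

theorem cos_facts {r : ℝ} (hr0 : 0 < r) (hr1 : r ≤ 1 / 2) :
    0 < (1 + Real.cos r) / 2 ∧ (1 + Real.cos r) / 2 < (1 + Real.cos (r / 2)) / 2 ∧
      (1 + Real.cos (r / 2)) / 2 ≤ 1 := by
  have hpi := Real.pi_gt_three
  have h1 : 0 < Real.cos r := Real.cos_pos_of_mem_Ioo ⟨by linarith, by linarith⟩
  have h2 : Real.cos r < Real.cos (r / 2) :=
    Real.cos_lt_cos_of_nonneg_of_le_pi (by linarith) (by linarith) (by linarith)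
  have h3 := Real.cos_le_one (r / 2)
  exact ⟨by linarith, by linarith, by linarith⟩

/-- the counting part of the argument -/
theorem core_count {M J L N : ℕ} {Q : ℕ → ℂ} {φ : ℝ → ℝ} {a : ℤ → ℝ} {r Q1 δ₀ κ δ : ℝ}
    (hr0 : 0 < r) (hQ0 : Q 0 = 1) (hQ1 : Q1 = ∑ j ∈ range (M + 1), ‖Q j‖) (hQ1pos : 1 ≤ Q1)
    (hδ₀ : δ₀ = 1 / (5 * Q1)) (hJ : 4 / r ≤ J) (hL : L = 2 ^ M + M + J * (2 ^ M).factorial + 1)
    (hκ : κ = r / (4 * L) * δ₀ ^ 2 / (M + 1)) (hNpos : 0 < N) (h8 : 8 * (2 + 2 * L) / r ≤ N)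
    (hd2 : δ ≤ r / 8) (hpm : ∀ k : ℤ, 0 ≤ k → k < N → a k = 1 ∨ a k = -1)
    (hs : ∀ k : ℤ, k < 0 ∨ (N : ℤ) ≤ k → a k = 0)
    (hflat : ∀ x : ℝ, |‖PP N (ac a) x‖ ^ 2 - N| ≤ δ * N) (k₁ k₂ : ℤ) (hk10 : 0 ≤ k₁)
    (hk2N : k₂ ≤ N) (h4 : r * N - 2 ≤ ((k₂ - k₁ : ℤ) : ℝ))
    (hpred : ∀ k : ℤ, ‖∑ j ∈ range (M + 1), Q j * (a (k - j) : ℂ)
          - ∑ j ∈ range (M + 1), Q j * gh φ N a (k - j)‖ ≤ 1 / 4)
    (hsum : ∑ k ∈ Ico k₁ k₂, ‖gh φ N a k‖ ^ 2 ≤ N * κ) : False := by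
  have hNR : (0 : ℝ) < N := by exact_mod_cast hNpos
  have hδ₀pos : 0 < δ₀ := by rw [hδ₀]; positivity
  have hJpos : (0 : ℝ) < J := lt_of_lt_of_le (by positivity) hJ
  have hJ1 : 1 ≤ J := by exact_mod_cast Nat.one_le_iff_ne_zero.2 (by
    rintro rfl; simp at hJpos)
  have hLpos : (0 : ℝ) < L := by
    have : 0 < L := by rw [hL]; positivity
    exact_mod_cast this
  -- bad positions
  set BG : Finset ℤ := (Ico k₁ k₂).filter (fun k => δ₀ < ‖gh φ N a k‖) with hBG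
  have hBGcard : (BG.card : ℝ) * δ₀ ^ 2 ≤ N * κ := by
    refine le_trans ?_ hsum
    have h1 : ∑ k ∈ BG, δ₀ ^ 2 ≤ ∑ k ∈ BG, ‖gh φ N a k‖ ^ 2 := by
      refine Finset.sum_le_sum fun k hk => ?_
      have := (Finset.mem_filter.1 hk).2
      exact pow_le_pow_left₀ hδ₀pos.le this.le 2
    have h2 : ∑ k ∈ BG, ‖gh φ N a k‖ ^ 2 ≤ ∑ k ∈ Ico k₁ k₂, ‖gh φ N a k‖ ^ 2 :=
      Finset.sum_le_sum_of_subset_of_nonneg (Finset.filter_subset _ _) (fun _ _ _ => by positivity)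
    rw [Finset.sum_const, nsmul_eq_mul] at h1
    exact h1.trans h2
  set Bad : Finset ℤ := (BG ×ˢ range (M + 1)).image (fun z => z.1 + (z.2 : ℤ)) with hBad
  have hBadcard : (Bad.card : ℝ) ≤ BG.card * (M + 1) := by
    have h1 : Bad.card ≤ (BG ×ˢ range (M + 1)).card := Finset.card_image_le
    rw [Finset.card_product, Finset.card_range] at h1
    exact_mod_cast h1
  have hBadN : L * (Bad.card : ℝ) ≤ N * r / 4 := by
    have h1 : (BG.card : ℝ) ≤ N * κ / δ₀ ^ 2 := by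
      rw [le_div_iff₀ (by positivity)]; exact hBGcard
    have h2 : L * (Bad.card : ℝ) ≤ L * (N * κ / δ₀ ^ 2 * (M + 1)) :=
      mul_le_mul_of_nonneg_left (hBadcard.trans (mul_le_mul_of_nonneg_right h1 (by positivity)))
        hLpos.le
    refine h2.trans (le_of_eq ?_)
    rw [hκ]
    field_simp
  have hrule : ∀ k : ℤ, k₁ + M ≤ k → k < k₂ → k ∉ Bad →
      a k = ruleQ M Q (fun j : Fin M => a (k - 1 - (j : ℕ))) := by
    intro k hka hkb hkB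
    have hk0 : 0 ≤ k := by omega
    have hkN : k < N := by omega
    refine rule_of_small hQ0 (hpm k hk0 hkN) ?_
    have h1 := hpred k
    have h2 : ‖∑ j ∈ range (M + 1), Q j * gh φ N a (k - j)‖ ≤ 1 / 5 := by
      have h3 : ∀ j ∈ range (M + 1), ‖Q j * gh φ N a (k - j)‖ ≤ ‖Q j‖ * δ₀ := by
        intro j hj
        rw [norm_mul]
        refine mul_le_mul_of_nonneg_left ?_ (norm_nonneg _)
        by_contra hlt
        push Not at hlt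
        apply hkB
        rw [hBad, Finset.mem_image]
        have hj' := Finset.mem_range.1 hj
        refine ⟨(k - j, j), ?_, by simp⟩
        rw [Finset.mem_product]
        refine ⟨?_, hj⟩
        rw [hBG, Finset.mem_filter, Finset.mem_Ico]
        exact ⟨⟨by omega, by omega⟩, hlt⟩
      refine (norm_sum_le_of_le _ h3).trans ?_
      rw [← Finset.sum_mul, ← hQ1, hδ₀]
      have : Q1 * (1 / (5 * Q1)) = 1 / 5 := by field_simp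
      rw [this]
    have e : ∑ j ∈ range (M + 1), Q j * (a (k - j) : ℂ) =
        (∑ j ∈ range (M + 1), Q j * (a (k - j) : ℂ)
          - ∑ j ∈ range (M + 1), Q j * gh φ N a (k - j))
          + ∑ j ∈ range (M + 1), Q j * gh φ N a (k - j) := by ring
    rw [e]
    refine (norm_add_le _ _).trans ?_
    linarith
  have hrun := run_count M J N hJ1 (ruleQ M Q) a k₁ k₂ hk10 hk2N hpm Bad hrule
  rw [← hL] at hrun
  have hcorr : ∀ h : ℤ, h ≠ 0 → |∑ k ∈ Ico (0 : ℤ) N, a k * a (k + h)| ≤ δ * N :=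
    fun h hh => corr_le hs hflat h hh
  have hcnt := count_periodic hpm hs hcorr ((2 ^ M).factorial) J (Nat.factorial_pos _) hJ1
  have hfin := hrun.trans hcnt
  have h1 : (N : ℝ) / J ≤ N * r / 4 := by
    rw [div_le_iff₀ hJpos]
    have : 4 ≤ J * r := by rwa [div_le_iff₀ hr0] at hJ
    nlinarith
  have h2 : δ * N ≤ r / 8 * N := mul_le_mul_of_nonneg_right hd2 hNR.le
  have h3 : 2 + 2 * (L : ℝ) ≤ r * N / 8 := by
    rw [div_le_iff₀ hr0] at h8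
    linarith
  have h5 : 0 < r * N := by positivity
  have h6 : (L : ℝ) * ((Bad.card : ℝ) + 2) = L * (Bad.card : ℝ) + 2 * L := by ring
  rw [h6] at hfin
  linarith

/-- the window of positions -/
theorem window {N : ℕ} {c r : ℝ} (hN : 0 < N) (hc0 : r / 2 ≤ c) (hc1 : c + r / 2 ≤ 1) :
    ∃ k₁ k₂ : ℤ, 0 ≤ k₁ ∧ k₂ ≤ N ∧ r * N - 2 ≤ ((k₂ - k₁ : ℤ) : ℝ) ∧
      ∀ k ∈ Ico k₁ k₂, |(k : ℝ) / N - c| ≤ r / 2 := by
  have hNR : (0 : ℝ) < N := by exact_mod_cast hN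
  refine ⟨⌈N * (c - r / 2)⌉, ⌊N * (c + r / 2)⌋, ?_, ?_, ?_, ?_⟩
  · exact Int.ceil_nonneg (mul_nonneg hNR.le (by linarith))
  · have h1 : ((⌊N * (c + r / 2)⌋ : ℤ) : ℝ) ≤ N * (c + r / 2) := Int.floor_le _
    have h2 : (N : ℝ) * (c + r / 2) ≤ N * 1 := mul_le_mul_of_nonneg_left hc1 hNR.le
    have h3 : ((⌊N * (c + r / 2)⌋ : ℤ) : ℝ) ≤ ((N : ℤ) : ℝ) := by
      push_cast
      linarith
    exact_mod_cast h3
  · have h1 : ((⌈N * (c - r / 2)⌉ : ℤ) : ℝ) < N * (c - r / 2) + 1 := Int.ceil_lt_add_one _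
    have h2 : (N * (c + r / 2) : ℝ) < ⌊N * (c + r / 2)⌋ + 1 := Int.lt_floor_add_one _
    push_cast
    linarith
  · intro k hk
    rw [Finset.mem_Ico] at hk
    have h1 : (N * (c - r / 2) : ℝ) ≤ k := Int.ceil_le.1 hk.1
    have h2 : (k : ℝ) ≤ N * (c + r / 2) := Int.le_floor.1 hk.2.le
    have e : (k : ℝ) / N - c = (k - N * c) / N := by field_simp
    rw [e, abs_div, abs_of_pos hNR, div_le_iff₀ hNR, abs_le]
    constructor <;> linarith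

/-- arithmetic of the spectral estimate -/
theorem spec_sum {S X κ ρ₁ ρ₂ y τ : ℝ} {p : ℕ} (hX : 0 < X) (hρ₁ : 0 < ρ₁) (hρ₂ : 0 < ρ₂)
    (hκ : 0 < κ) (hy : 0 ≤ y) (hτ : τ = Real.sqrt κ * ρ₂ ^ p / 3)
    (hp : 2 * ρ₁ ^ p ≤ Real.sqrt κ * ρ₂ ^ p / 3) (hy2 : y ≤ Real.sqrt κ * ρ₂ ^ p / 3)
    (hspec : ρ₂ ^ (2 * p) * S ≤ X * (2 * ρ₁ ^ p + y + τ) ^ 2) : S ≤ X * κ := by
  have h0 : 0 ≤ 2 * ρ₁ ^ p + y + τ := by rw [hτ]; positivity
  have h1 : 2 * ρ₁ ^ p + y + τ ≤ Real.sqrt κ * ρ₂ ^ p := by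
    rw [hτ]; linarith
  have h2 : (2 * ρ₁ ^ p + y + τ) ^ 2 ≤ (Real.sqrt κ * ρ₂ ^ p) ^ 2 := pow_le_pow_left₀ h0 h1 2
  have h3 : (Real.sqrt κ * ρ₂ ^ p) ^ 2 = κ * ρ₂ ^ (2 * p) := by
    rw [mul_pow, Real.sq_sqrt hκ.le, ← pow_mul, mul_comm p 2]
  have h4 : ρ₂ ^ (2 * p) * S ≤ ρ₂ ^ (2 * p) * (X * κ) := by
    refine hspec.trans ?_
    have := mul_le_mul_of_nonneg_left (h2.trans_eq h3) hX.le
    calc X * (2 * ρ₁ ^ p + y + τ) ^ 2 ≤ X * (κ * ρ₂ ^ (2 * p)) := this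
      _ = ρ₂ ^ (2 * p) * (X * κ) := by ring
  exact le_of_mul_le_mul_left h4 (by positivity)

/-- the core statement -/
theorem core (s t r : ℝ) (hst : s < t) (hr0 : 0 < r) (hr1 : r ≤ 1 / 2) :
    ∃ δ : ℝ, 0 < δ ∧ ∃ N₀ : ℕ, ∀ N : ℕ, N₀ ≤ N → ∀ a : ℤ → ℝ,
      (∀ k : ℤ, 0 ≤ k → k < N → a k = 1 ∨ a k = -1) → (∀ k : ℤ, k < 0 ∨ (N : ℤ) ≤ k → a k = 0) →
      (∀ x : ℝ, |‖PP N (ac a) x‖ ^ 2 - N| ≤ δ * N) →
      ∀ c : ℝ, r / 2 ≤ c → c + r / 2 ≤ 1 → ∃ x ∈ Set.Ioo s t, |bs N (ac a) x - c| < r := by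
  obtain ⟨M, Q, φ, Λ, hQ0, hΛ, hφc, hper, h01, hlip, hsupp, hpred⟩ := exists_predictor s t hst
  obtain ⟨hρ1, hρ12, hρ2⟩ := cos_facts hr0 hr1
  set ρ₁ := (1 + Real.cos r) / 2 with hρ₁
  set ρ₂ := (1 + Real.cos (r / 2)) / 2 with hρ₂
  have hρ20 : 0 < ρ₂ := hρ1.trans hρ12
  obtain ⟨Q1, hQ1⟩ : ∃ Q1 : ℝ, Q1 = ∑ j ∈ range (M + 1), ‖Q j‖ := ⟨_, rfl⟩
  have hQ1pos : 1 ≤ Q1 := by
    rw [hQ1]
    have := Finset.single_le_sum (f := fun j => ‖Q j‖) (s := range (M + 1))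
      (fun j _ => norm_nonneg _) (Finset.mem_range.2 (Nat.succ_pos M))
    simpa [hQ0] using this
  obtain ⟨δ₀, hδ₀⟩ : ∃ δ₀ : ℝ, δ₀ = 1 / (5 * Q1) := ⟨_, rfl⟩
  have hδ₀pos : 0 < δ₀ := by rw [hδ₀]; positivity
  obtain ⟨J, hJ⟩ := exists_nat_ge (4 / r)
  have hJpos : (0 : ℝ) < J := lt_of_lt_of_le (by positivity) hJ
  have hJ1 : 1 ≤ J := by exact_mod_cast Nat.one_le_iff_ne_zero.2 (by
    rintro rfl; simp at hJpos)
  obtain ⟨L, hL⟩ : ∃ L : ℕ, L = 2 ^ M + M + J * (2 ^ M).factorial + 1 := ⟨_, rfl⟩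
  have hLpos : (0 : ℝ) < L := by
    have : 0 < L := by rw [hL]; positivity
    exact_mod_cast this
  obtain ⟨κ, hκ⟩ : ∃ κ : ℝ, κ = r / (4 * L) * δ₀ ^ 2 / (M + 1) := ⟨_, rfl⟩
  have hκpos : 0 < κ := by rw [hκ]; positivity
  have hsκ : 0 < Real.sqrt κ := Real.sqrt_pos.2 hκpos
  -- choice of p
  obtain ⟨p, hp⟩ := exists_pow_lt_of_lt_one (by positivity : 0 < Real.sqrt κ / 6)
    (by rw [div_lt_one hρ20]; exact hρ12 : ρ₁ / ρ₂ < 1)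
  have hρ2p : 0 < ρ₂ ^ p := by positivity
  have hp' : 2 * ρ₁ ^ p ≤ Real.sqrt κ * ρ₂ ^ p / 3 := by
    rw [div_pow, div_lt_iff₀ hρ2p] at hp
    linarith
  obtain ⟨τ, hτ⟩ : ∃ τ : ℝ, τ = Real.sqrt κ * ρ₂ ^ p / 3 := ⟨_, rfl⟩
  have hτpos : 0 < τ := by rw [hτ]; positivity
  obtain ⟨δ₁, hδ₁, HL⟩ := local_exp p τ (by positivity) hτpos
  obtain ⟨n₁, hn₁⟩ := exists_nat_ge (2 * Λ * p / τ)
  obtain ⟨n₂, hn₂⟩ := exists_nat_ge (8 * (2 + 2 * L) / r)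
  refine ⟨min δ₁ (min (r / 8) 1), by positivity, n₁ + n₂ + 1, ?_⟩
  intro N hN a hpm hs hflat c hc0 hc1
  by_contra hcon
  push Not at hcon
  have hNpos : 0 < N := by omega
  have hNR : (0 : ℝ) < N := by exact_mod_cast hNpos
  have hNn1 : (n₁ : ℝ) ≤ N := by exact_mod_cast (by omega : n₁ ≤ N)
  have hNn2 : (n₂ : ℝ) ≤ N := by exact_mod_cast (by omega : n₂ ≤ N)
  have hd1 : min δ₁ (min (r / 8) 1) ≤ δ₁ := min_le_left _ _
  have hd2 : min δ₁ (min (r / 8) 1) ≤ r / 8 := (min_le_right _ _).trans (min_le_left _ _)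
  have hd3 : min δ₁ (min (r / 8) 1) ≤ 1 := (min_le_right _ _).trans (min_le_right _ _)
  set δ := min δ₁ (min (r / 8) 1) with hδdef
  have hloc := HL N (ac a) hNpos (fun x => (hflat x).trans
    (mul_le_mul_of_nonneg_right hd1 hNR.le))
  -- upper bound
  have hsq : Real.sqrt N ^ 2 = N := Real.sq_sqrt hNR.le
  have hP : ∀ x : ℝ, ‖PP N (ac a) x‖ ≤ 2 * Real.sqrt N := by
    intro x
    have h1 := (abs_le.1 (hflat x)).2
    have h2 : δ * N ≤ 1 * N := mul_le_mul_of_nonneg_right hd3 hNR.le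
    have h3 : ‖PP N (ac a) x‖ ^ 2 ≤ (2 * Real.sqrt N) ^ 2 := by
      rw [mul_pow, hsq]; linarith
    exact (pow_le_pow_iff_left₀ (norm_nonneg _) (by positivity) two_ne_zero).1 h3
  -- the gap
  have hgap : ∀ x, φ x ≠ 0 → r ≤ |bs N (ac a) x - c| := by
    intro x hx
    obtain ⟨m, hm⟩ := hsupp x hx
    have := hcon _ hm
    rwa [(PP_periodic N (ac a) x m).2] at this
  -- the window
  obtain ⟨k₁, k₂, hk10, hk2N, h4, hK⟩ := window hNpos hc0 hc1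
  -- spectral estimate
  have hspec := spec_count hNpos p hφc hper h01 hΛ hlip hτpos hP (fun x => (hloc x).1)
    (fun x σ hσ => (hloc x).2 σ hσ) (by linarith) (by linarith) hr0 hr1 hgap (Ico k₁ k₂) hK
  rw [← hρ₁, ← hρ₂] at hspec
  have h2Λ : 2 * Λ * p / N ≤ Real.sqrt κ * ρ₂ ^ p / 3 := by
    rw [← hτ, div_le_iff₀ hNR]
    have h1 : 2 * Λ * p / τ ≤ N := hn₁.trans hNn1
    rw [div_le_iff₀ hτpos] at h1
    linarith
  have hsum : ∑ k ∈ Ico k₁ k₂, ‖gh φ N a k‖ ^ 2 ≤ N * κ :=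
    spec_sum hNR hρ1 hρ20 hκpos (by positivity) hτ hp' h2Λ hspec
  have hone : ∀ k, |a k| ≤ 1 := by
    intro k
    by_cases h0 : 0 ≤ k ∧ k < N
    · rcases hpm k h0.1 h0.2 with h | h <;> rw [h] <;> norm_num
    · rw [hs k (by omega)]; norm_num
  exact core_count hr0 hQ0 hQ1 hQ1pos hδ₀ hJ hL hκ hNpos (hn₂.trans hNn2) hd2 hpm hs hflat k₁ k₂
    hk10 hk2N h4 (hpred N a hone hs) hsum

end Vale.Agent.P110
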