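import Vale.Agent.P110.Defs

/-! P110 modules BW1, BW2: growth off the real line. -/

namespace Vale.Agent.P110

open Finset Complex ComplexConjugate
open scoped Real

theorem BW1_max {f : ℂ → ℂ} {A : ℝ} (hf : Differentiable ℂ f) (h : ∀ z, ‖z‖ = 1 → ‖f z‖ ≤ A)
    (z : ℂ) (hz : ‖z‖ ≤ 1) : ‖f z‖ ≤ A := by
  refine Complex.norm_le_of_forall_mem_frontier_norm_le (U := Metric.ball (0 : ℂ) 1)
    Metric.isBounded_ball hf.diffContOnCl (fun w hw => ?_) ?_
  · rw [frontier_ball (0 : ℂ) one_ne_zero, mem_sphere_zero_iff_norm] at hw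
    exact h w hw
  · rw [closure_ball (0 : ℂ) one_ne_zero, mem_closedBall_zero_iff]
    exact hz

theorem BW1_exp (z : ℂ) (hz : ‖z‖ = 1) : z = exp (I * ((Complex.arg z : ℝ) : ℂ)) := by
  have h1 := Complex.norm_mul_exp_arg_mul_I z
  rw [hz] at h1
  rw [mul_comm I]
  simpa using h1.symm

theorem BW1_PP {N : ℕ} {a : ℕ → ℂ} (w : ℂ) :
    PP N a w = ∑ k ∈ range N, a k * (exp (I * w)) ^ k := by
  unfold PP
  refine Finset.sum_congr rfl fun k _ => ?_
  rw [← Complex.exp_nat_mul]
  congr 2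
  ring

theorem BW1_rev {N : ℕ} {a : ℕ → ℂ} (w : ℂ) :
    ∑ k ∈ range N, a k * (exp (-(I * w))) ^ (N - k) = exp (-(I * w)) ^ N * PP N a w := by
  rw [BW1_PP, Finset.mul_sum]
  refine Finset.sum_congr rfl fun k hk => ?_
  have hkN : k ≤ N := (Finset.mem_range.mp hk).le
  have h1 : exp (-(I * w)) ^ N = exp (-(I * w)) ^ (N - k) * exp (-(I * w)) ^ k := by
    rw [← pow_add, Nat.sub_add_cancel hkN]
  have h2 : exp (-(I * w)) ^ k * exp (I * w) ^ k = 1 := by
    rw [← mul_pow, ← Complex.exp_add, neg_add_cancel, Complex.exp_zero, one_pow]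
  calc a k * exp (-(I * w)) ^ (N - k)
      = exp (-(I * w)) ^ (N - k) * (exp (-(I * w)) ^ k * exp (I * w) ^ k) * a k := by
        rw [h2]; ring
    _ = exp (-(I * w)) ^ N * (a k * exp (I * w) ^ k) := by rw [h1]; ring

/-- (BW1) `PP N a w = p (exp (I w))` with `p` a polynomial of degree `< N`: maximum principle in the
unit disc for `p` (case `Im w ≥ 0`) and for the reversed polynomial `z^{N-1} p(1/z)` (case
`Im w ≤ 0`). -/
theorem grow_upper {N : ℕ} {a : ℕ → ℂ} {A : ℝ} (hA : ∀ x : ℝ, ‖PP N a x‖ ≤ A) (w : ℂ) :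
    (0 ≤ w.im → ‖PP N a w‖ ≤ A) ∧ (w.im ≤ 0 → ‖PP N a w‖ ≤ A * Real.exp (N * (-w.im))) := by
  refine ⟨fun hw => ?_, fun hw => ?_⟩
  · rw [BW1_PP]
    refine BW1_max (f := fun z => ∑ k ∈ range N, a k * z ^ k) (by fun_prop) (fun z hz => ?_)
      (exp (I * w)) ?_
    · have h1 := hA (Complex.arg z)
      rw [BW1_PP, ← BW1_exp z hz] at h1
      exact h1
    · rw [Complex.norm_exp]
      simp only [Complex.mul_re, Complex.I_re, Complex.I_im, zero_mul, one_mul, zero_sub]
      exact Real.exp_le_one_iff.mpr (by linarith)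
  · have h2 : ‖∑ k ∈ range N, a k * (exp (-(I * w))) ^ (N - k)‖ ≤ A := by
      refine BW1_max (f := fun z => ∑ k ∈ range N, a k * z ^ (N - k)) (by fun_prop) (fun z hz => ?_)
        (exp (-(I * w))) ?_
      · have h1 := hA (-Complex.arg z)
        have h3 := BW1_rev (N := N) (a := a) (((-Complex.arg z : ℝ)) : ℂ)
        have h4 : exp (-(I * (((-Complex.arg z : ℝ)) : ℂ))) = z := by
          conv_rhs => rw [BW1_exp z hz]
          congr 1
          push_cast
          ring
        rw [h4] at h3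
        show ‖∑ k ∈ range N, a k * z ^ (N - k)‖ ≤ A
        rw [h3, norm_mul, norm_pow, hz, one_pow, one_mul]
        exact h1
      · rw [Complex.norm_exp]
        simp only [Complex.neg_re, Complex.mul_re, Complex.I_re, Complex.I_im, zero_mul, one_mul,
          zero_sub, neg_neg]
        exact Real.exp_le_one_iff.mpr hw
    rw [BW1_rev, norm_mul, norm_pow, Complex.norm_exp] at h2
    simp only [Complex.neg_re, Complex.mul_re, Complex.I_re, Complex.I_im, zero_mul, one_mul,
          zero_sub, neg_neg] at h2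
    rw [← Real.exp_nat_mul] at h2
    have h5 : Real.exp (N * (-w.im)) * Real.exp (N * w.im) = 1 := by
      rw [← Real.exp_add]
      have : (N : ℝ) * (-w.im) + N * w.im = 0 := by ring
      rw [this, Real.exp_zero]
    calc ‖PP N a w‖ = Real.exp (N * (-w.im)) * (Real.exp (N * w.im) * ‖PP N a w‖) := by
          rw [← mul_assoc, h5, one_mul]
      _ ≤ Real.exp (N * (-w.im)) * A :=
          mul_le_mul_of_nonneg_left h2 (Real.exp_pos _).le
      _ = A * Real.exp (N * (-w.im)) := mul_comm _ _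

private theorem bw2_conj (N : ℕ) (a : ℕ → ℂ) (w : ℂ) :
    conj (PP N a (conj w)) = ∑ l ∈ range N, conj (a l) * exp (-(I * l * w)) := by
  unfold PP
  rw [map_sum]
  refine sum_congr rfl fun l _ => ?_
  rw [map_mul, ← Complex.exp_conj, map_mul, map_mul, conj_I, conj_conj, Complex.conj_natCast]
  congr 2
  ring

private theorem bw2_poly (N : ℕ) (a : ℕ → ℂ) : ∃ c : ℕ → ℂ, ∀ w : ℂ,
    PP (2 * N + 1) c w
      = exp (I * N * w) * (PP N a w * conj (PP N a (conj w)) - N) := by
  classical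
  refine ⟨fun n => (∑ p ∈ (range N ×ˢ range N).filter (fun p => p.1 + (N - p.2) = n),
    a p.1 * conj (a p.2)) - (if n = N then (N : ℂ) else 0), fun w => ?_⟩
  rw [bw2_conj]
  have e1 : PP (2 * N + 1) (fun n => (∑ p ∈ (range N ×ˢ range N).filter
      (fun p => p.1 + (N - p.2) = n), a p.1 * conj (a p.2)) - (if n = N then (N : ℂ) else 0)) w
      = (∑ n ∈ range (2 * N + 1), ∑ p ∈ (range N ×ˢ range N).filter
        (fun p => p.1 + (N - p.2) = n), a p.1 * conj (a p.2) * exp (I * ((p.1 + (N - p.2) : ℕ) : ℂ) * w))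
        - (N : ℂ) * exp (I * N * w) := by
    unfold PP
    simp only [sub_mul]
    rw [sum_sub_distrib]
    congr 1
    · refine sum_congr rfl fun n _ => ?_
      rw [sum_mul]
      refine sum_congr rfl fun p hp => ?_
      rw [(mem_filter.1 hp).2]
    · rw [sum_eq_single N]
      · simp
      · intro b _ hb
        simp [hb]
      · intro h
        exact absurd (mem_range.2 (by omega)) h
  rw [e1, sum_fiberwise_of_maps_to (g := fun p : ℕ × ℕ => p.1 + (N - p.2)), sum_product]
  · unfold PP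
    rw [mul_sub, mul_comm (N : ℂ)]
    congr 1
    rw [sum_mul_sum, mul_sum]
    refine sum_congr rfl fun k hk => ?_
    rw [mul_sum]
    refine sum_congr rfl fun l hl => ?_
    have hl' : l ≤ N := (mem_range.1 hl).le
    have e2 : exp (I * ((k + (N - l) : ℕ) : ℂ) * w)
        = exp (I * N * w) * (exp (I * k * w) * exp (-(I * l * w))) := by
      rw [← Complex.exp_add, ← Complex.exp_add]
      congr 1
      push_cast [Nat.cast_sub hl']
      ring
    rw [e2]
    ring
  · intro p hp
    rw [mem_product, mem_range, mem_range] at hp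
    rw [mem_range]
    have := hp.1
    have := Nat.sub_le N p.2
    show p.1 + (N - p.2) < 2 * N + 1
    omega

private theorem bw2_up {N : ℕ} {a : ℕ → ℂ} {D : ℝ}
    (hD : ∀ x : ℝ, |‖PP N a x‖ ^ 2 - N| ≤ D) (w : ℂ) (hw : 0 ≤ w.im) :
    ‖PP N a w * conj (PP N a (conj w)) - N‖ ≤ D * Real.exp (N * |w.im|) := by
  obtain ⟨c, hc⟩ := bw2_poly N a
  have hx : ∀ x : ℝ, ‖PP (2 * N + 1) c x‖ ≤ D := by
    intro x
    rw [hc, norm_mul, Complex.conj_ofReal]
    have h1 : ‖exp (I * N * (x : ℂ))‖ = 1 := by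
      rw [Complex.norm_exp]
      simp
    have h2 : PP N a x * conj (PP N a x) - N = ((‖PP N a x‖ ^ 2 - N : ℝ) : ℂ) := by
      rw [Complex.mul_conj, Complex.normSq_eq_norm_sq]
      push_cast
      ring
    rw [h1, one_mul, h2, Complex.norm_real, Real.norm_eq_abs]
    exact hD x
  have h := (grow_upper hx w).1 hw
  rw [hc, norm_mul, Complex.norm_exp] at h
  have h3 : (I * N * w).re = -(N * w.im) := by
    simp [Complex.mul_re]
  rw [h3, Real.exp_neg] at h
  rw [abs_of_nonneg hw]
  have h4 : 0 < Real.exp (N * w.im) := Real.exp_pos _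
  rw [inv_mul_le_iff₀ h4] at h
  rw [mul_comm D]
  exact h

/-- (BW2) `T(w) = PP N a w * conj (PP N a (conj w)) - N` is a trigonometric polynomial with
frequencies in `[-N, N]`, so `exp (I N w) T(w) = PP (2N+1) c w`; apply BW1 for `Im w ≥ 0`; for
`Im w ≤ 0` use `T (conj w) = conj (T w)`. -/
theorem grow_T {N : ℕ} {a : ℕ → ℂ} {D : ℝ} (hD : ∀ x : ℝ, |‖PP N a x‖ ^ 2 - N| ≤ D) (w : ℂ) :
    ‖PP N a w * conj (PP N a (conj w)) - N‖ ≤ D * Real.exp (N * |w.im|) := by
  rcases le_total 0 w.im with hw | hw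
  · exact bw2_up hD w hw
  · have h := bw2_up hD (conj w) (by rw [Complex.conj_im]; linarith)
    rw [Complex.conj_conj, Complex.conj_im, abs_neg] at h
    have e : PP N a w * conj (PP N a (conj w)) - N
        = conj (PP N a (conj w) * conj (PP N a w) - N) := by
      rw [map_sub, map_mul, Complex.conj_conj, Complex.conj_natCast, mul_comm]
    rw [e, RCLike.norm_conj]
    exact h

end Vale.Agent.P110
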