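import Vale.Agent.P110.Stmt
import Vale.Agent.P110.Final

/-! P110: the main theorem (helper68). -/

namespace Vale.Agent.P110

open Finset Complex Filter
open scoped Real

/-- extension by zero to `ℤ` -/
noncomputable def ext (N : ℕ) (ε : ℕ → ℝ) (k : ℤ) : ℝ :=
  if 0 ≤ k ∧ k < N then ε k.toNat else 0

theorem ext_nat {N : ℕ} (ε : ℕ → ℝ) {k : ℕ} (hk : k < N) : ext N ε (k : ℤ) = ε k := by
  unfold ext
  rw [if_pos ⟨by omega, by exact_mod_cast hk⟩]
  simp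

theorem PP_ext (N : ℕ) (ε : ℕ → ℝ) (x : ℝ) : PP N (ac (ext N ε)) x = litt N ε x := by
  unfold PP litt ac
  refine Finset.sum_congr rfl fun k hk => ?_
  rw [ext_nat ε (Finset.mem_range.1 hk)]

theorem deriv_litt (N : ℕ) (ε : ℕ → ℝ) (x : ℝ) :
    deriv (litt N ε) x = I * ∑ k ∈ range N, (k : ℂ) * (ε k : ℂ) * exp (I * k * x) := by
  have h : HasDerivAt (litt N ε) (∑ k ∈ range N, (ε k : ℂ) * (exp (I * k * x) * (I * k))) x := by
    unfold litt
    refine HasDerivAt.fun_sum fun k _ => ?_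
    refine HasDerivAt.const_mul _ ?_
    have h1 : HasDerivAt (fun y : ℝ => I * k * (y : ℂ)) (I * k) x := by
      simpa using (Complex.ofRealCLM.hasDerivAt (x := x)).const_mul (I * k)
    exact h1.cexp
  rw [h.deriv, Finset.mul_sum]
  exact Finset.sum_congr rfl fun k _ => by ring

theorem bs_ext (N : ℕ) (ε : ℕ → ℝ) (x : ℝ) : bs N (ac (ext N ε)) x = speed N ε x := by
  unfold bs speed
  rw [PP_ext, deriv_litt, mul_div_mul_left _ _ Complex.I_ne_zero]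
  congr 3
  refine Finset.sum_congr rfl fun k hk => ?_
  unfold ac
  rw [ext_nat ε (Finset.mem_range.1 hk)]

/-- the finite form -/
theorem finite_form (s t η : ℝ) (hst : s < t) (hη : 0 < η) :
    ∃ δ : ℝ, 0 < δ ∧ ∃ N₀ : ℕ, ∀ (N : ℕ) (ε : ℕ → ℝ), N₀ ≤ N → IsLittlewood N ε →
      FlatUpTo δ N ε → ∀ c ∈ Set.Icc (0 : ℝ) 1, ∃ x ∈ Set.Ioo s t, |speed N ε x - c| < η := by
  set r : ℝ := min (η / 2) (1 / 2) with hr
  have hr0 : 0 < r := by rw [hr]; positivity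
  have hr1 : r ≤ 1 / 2 := min_le_right _ _
  have hrη : r ≤ η / 2 := min_le_left _ _
  obtain ⟨δ, hδ, N₀, H⟩ := core s t r hst hr0 hr1
  refine ⟨min 1 (δ / 3), by positivity, max N₀ 1, ?_⟩
  intro N ε hN hL hF c hc
  have hN0 : N₀ ≤ N := (le_max_left _ _).trans hN
  have hN1 : 1 ≤ N := (le_max_right _ _).trans hN
  have hNR : (0 : ℝ) < N := by exact_mod_cast hN1
  have hsq : Real.sqrt N ^ 2 = N := Real.sq_sqrt hNR.le
  have hs0 : 0 < Real.sqrt N := Real.sqrt_pos.2 hNR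
  have hflat : ∀ x : ℝ, |‖PP N (ac (ext N ε)) x‖ ^ 2 - N| ≤ δ * N := by
    intro x
    rw [PP_ext]
    obtain ⟨y, hy⟩ : ∃ y : ℝ, y = ‖litt N ε x‖ / Real.sqrt N - 1 := ⟨_, rfl⟩
    have h1 : |y| ≤ min 1 (δ / 3) := by rw [hy]; exact hF x
    have h2 : ‖litt N ε x‖ = Real.sqrt N * (1 + y) := by rw [hy]; field_simp; ring
    have h3 : |y| ≤ 1 := h1.trans (min_le_left _ _)
    have h4 : |y| ≤ δ / 3 := h1.trans (min_le_right _ _)
    have e : ‖litt N ε x‖ ^ 2 - N = N * (y * (2 + y)) := by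
      rw [h2, mul_pow, hsq]; ring
    rw [e, abs_mul, abs_mul, abs_of_pos hNR]
    have h5 : |2 + y| ≤ 3 := by
      have := abs_le.1 h3
      rw [abs_le]; constructor <;> linarith
    have h6 : |y| * |2 + y| ≤ δ / 3 * 3 := mul_le_mul h4 h5 (abs_nonneg _) (by positivity)
    nlinarith
  have hpm : ∀ k : ℤ, 0 ≤ k → k < N → ext N ε k = 1 ∨ ext N ε k = -1 := by
    intro k h0 h1
    unfold ext
    rw [if_pos ⟨h0, h1⟩]
    exact hL _ (by omega)
  have hs : ∀ k : ℤ, k < 0 ∨ (N : ℤ) ≤ k → ext N ε k = 0 := by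
    intro k hk
    unfold ext
    rw [if_neg (by omega)]
  -- move `c` inside
  obtain ⟨c', hc'⟩ : ∃ c' : ℝ, c' = max (r / 2) (min c (1 - r / 2)) := ⟨_, rfl⟩
  have h1 : r / 2 ≤ c' := by rw [hc']; exact le_max_left _ _
  have h2 : c' + r / 2 ≤ 1 := by
    have : c' ≤ 1 - r / 2 := by rw [hc']; exact max_le (by linarith) (min_le_right _ _)
    linarith
  have h3 : |c' - c| ≤ r / 2 := by
    have hc0 := hc.1
    have hc1 := hc.2
    rw [hc', abs_le]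
    constructor
    · have : min c (1 - r / 2) ≤ max (r / 2) (min c (1 - r / 2)) := le_max_right _ _
      have h4 : c - r / 2 ≤ min c (1 - r / 2) := le_min (by linarith) (by linarith)
      linarith
    · have : max (r / 2) (min c (1 - r / 2)) ≤ c + r / 2 :=
        max_le (by linarith) ((min_le_left _ _).trans (by linarith))
      linarith
  obtain ⟨x, hx, hxb⟩ := H N hN0 (ext N ε) hpm hs hflat c' h1 h2
  refine ⟨x, hx, ?_⟩
  rw [bs_ext] at hxb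
  have e : speed N ε x - c = (speed N ε x - c') + (c' - c) := by ring
  rw [e]
  refine lt_of_le_of_lt (abs_add_le _ _) ?_
  linarith

/-- the sequence form -/
theorem seq_form (N : ℕ → ℕ) (ε : ℕ → ℕ → ℝ) (hU : IsUltraflat N ε) (s t : ℝ) (hst : s < t)
    (η : ℝ) (hη : 0 < η) : ∀ᶠ n in atTop, ∀ c ∈ Set.Icc (0 : ℝ) 1, ∃ x ∈ Set.Ioo s t,
      |speed (N n) (ε n) x - c| < η := by
  obtain ⟨δ, hδ, N₀, H⟩ := finite_form s t η hst hη
  filter_upwards [hU.1.eventually_ge_atTop N₀, hU.2.2 δ hδ] with n h1 h2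
  exact H (N n) (ε n) h1 (hU.2.1 n) h2

/-- no equicontinuity at any point -/
theorem not_equi (N : ℕ → ℕ) (ε : ℕ → ℕ → ℝ) (hU : IsUltraflat N ε) (x₀ : ℝ) :
    ¬ ∀ η : ℝ, 0 < η → ∃ ρ : ℝ, 0 < ρ ∧ ∃ᶠ n in atTop, ∀ x : ℝ, |x - x₀| < ρ →
      |speed (N n) (ε n) x - speed (N n) (ε n) x₀| < η := by
  intro h
  obtain ⟨ρ, hρ, hf⟩ := h (1 / 4) (by norm_num)
  have h1 := seq_form N ε hU (x₀ - ρ) (x₀ + ρ) (by linarith) (1 / 4) (by norm_num)
  obtain ⟨n, hn, hn'⟩ := (hf.and_eventually h1).exists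
  obtain ⟨x, hx, hxb⟩ := hn' 0 (by norm_num)
  obtain ⟨y, hy, hyb⟩ := hn' 1 (by norm_num)
  have e1 := abs_lt.1 (hn x (abs_lt.2 ⟨by linarith [hx.1], by linarith [hx.2]⟩))
  have e2 := abs_lt.1 (hn y (abs_lt.2 ⟨by linarith [hy.1], by linarith [hy.2]⟩))
  have e3 := abs_lt.1 hxb
  have e4 := abs_lt.1 hyb
  linarith [e1.1, e1.2, e2.1, e2.2, e3.1, e3.2, e4.1, e4.2]

end Vale.Agent.P110
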