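import Vale.Agent.P110.Defs

/-! P110 module POLY: a polynomial, `1` at `0`, small off an arc. -/

namespace Vale.Agent.P110

open Finset Complex
open scoped Real

/-- homogenised Chebyshev recursion -/
private noncomputable def POLYW (Y w : Polynomial ℂ) : ℕ → Polynomial ℂ
  | 0 => 1
  | 1 => Y
  | (m + 2) => 2 * Y * POLYW Y w (m + 1) - w ^ 2 * POLYW Y w m

private theorem POLYW_circle (Y w : Polynomial ℂ) (z : ℂ) (ψ : ℝ)
    (hY : Y.eval z = w.eval z * ((Real.cos ψ : ℝ) : ℂ)) (m : ℕ) :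
    (POLYW Y w m).eval z = (w.eval z) ^ m * ((Real.cos (m * ψ) : ℝ) : ℂ) := by
  induction m using Nat.twoStepInduction with
  | zero => simp [POLYW]
  | one => simp [POLYW, hY]
  | more m ih1 ih2 =>
    have h1 : (POLYW Y w (m + 2)).eval z
        = 2 * Y.eval z * (POLYW Y w (m + 1)).eval z - (w.eval z) ^ 2 * (POLYW Y w m).eval z := by
      rw [POLYW]
      simp
    rw [h1, ih1, ih2, hY]
    have h2 : Real.cos ((m + 2 : ℕ) * ψ)
        = 2 * Real.cos ψ * Real.cos ((m + 1 : ℕ) * ψ) - Real.cos (m * ψ) := by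
      have e1 : ((m + 2 : ℕ) : ℝ) * ψ = ((m + 1 : ℕ) : ℝ) * ψ + ψ := by
        push_cast
        ring
      have e2 : (m : ℝ) * ψ = ((m + 1 : ℕ) : ℝ) * ψ - ψ := by
        push_cast
        ring
      rw [e1, e2, Real.cos_add, Real.cos_sub]
      ring
    rw [h2]
    push_cast
    ring

private theorem POLYW_zero (Y w : Polynomial ℂ) (q : ℂ) (hY : Y.eval 0 = q / 2)
    (hw : w.eval 0 = 0) (m : ℕ) : (POLYW Y w (m + 1)).eval 0 = 1 / 2 * q ^ (m + 1) := by
  induction m with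
  | zero =>
    rw [POLYW, hY]
    ring
  | succ m ih =>
    have h1 : (POLYW Y w (m + 2)).eval 0
        = 2 * Y.eval 0 * (POLYW Y w (m + 1)).eval 0 - (w.eval 0) ^ 2 * (POLYW Y w m).eval 0 := by
      rw [POLYW]
      simp
    rw [h1, ih, hY, hw]
    ring

private theorem POLY_circle (α : ℝ) :
    (1 + -exp (I * α)) ^ 2 = -exp (I * α) * ((2 - 2 * Real.cos α : ℝ) : ℂ) := by
  have h1 := Complex.two_cos (α : ℂ)
  have h2 : exp (I * α) * exp (-(α : ℂ) * I) = 1 := by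
    rw [← Complex.exp_add]
    have : I * (α : ℂ) + -(α : ℂ) * I = 0 := by ring
    rw [this, Complex.exp_zero]
  have h3 : exp ((α : ℂ) * I) = exp (I * α) := by rw [mul_comm]
  rw [h3] at h1
  push_cast
  rw [h1]
  linear_combination -h2

/-- (POLY) Let `w = -e^{-iθ₀} z`, `v = 2 - 2 cos (x - θ₀) = (1 + w)^2 / w` for `z = e^{ix}`,
`X = (2 v - 4 - a') / (4 - a') ∈ [-1, 1]` for `v ∈ [a', 4]`, `Y = w X = (2 (1+w)^2 - (4 + a') w) / (4 - a')`,
`W 0 = 1`, `W 1 = Y`, `W (m+2) = 2 Y W (m+1) - w^2 W m`.  Then `W m = w^m T_m(X)` on the circle, so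
`‖W m‖ ≤ 1` for `v ≥ a'`, and `W m (0) = (4/(4-a'))^m / 2 → ∞`.  `S = W m / W m (0)`. -/
theorem exists_S (θ₀ a' : ℝ) (h0 : 0 < a') (h4 : a' < 4) :
    ∃ S : Polynomial ℂ, S.eval 0 = 1 ∧
      ∀ x : ℝ, a' ≤ 2 - 2 * Real.cos (x - θ₀) → ‖S.eval (exp (I * x))‖ ≤ 1 / 2 := by
  have h5 : 0 < 4 - a' := by linarith
  set q : ℝ := 4 / (4 - a') with hq
  have hq1 : 1 < q := by
    rw [hq, lt_div_iff₀ h5]
    linarith
  obtain ⟨n, hn⟩ := pow_unbounded_of_one_lt (4 : ℝ) hq1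
  set w : Polynomial ℂ := Polynomial.C (-exp (-(I * θ₀))) * Polynomial.X with hw
  set Y : Polynomial ℂ := Polynomial.C ((1 / (4 - a') : ℝ) : ℂ)
    * (Polynomial.C 2 * (1 + w) ^ 2 - Polynomial.C ((4 + a' : ℝ) : ℂ) * w) with hYd
  have hw0 : w.eval 0 = 0 := by simp [hw]
  have hY0 : Y.eval 0 = (q : ℂ) / 2 := by
    rw [hYd]
    simp only [Polynomial.eval_mul, Polynomial.eval_C, Polynomial.eval_sub, Polynomial.eval_pow,
      Polynomial.eval_add, Polynomial.eval_one, hw0]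
    rw [hq]
    push_cast
    ring
  have hK : (POLYW Y w (n + 1)).eval 0 = ((1 / 2 * q ^ (n + 1) : ℝ) : ℂ) := by
    rw [POLYW_zero Y w q hY0 hw0]
    push_cast
    ring
  have hKpos : 2 ≤ 1 / 2 * q ^ (n + 1) := by
    have h6 : q ^ n ≤ q ^ (n + 1) := pow_le_pow_right₀ hq1.le (Nat.le_succ n)
    linarith
  refine ⟨Polynomial.C (((1 / 2 * q ^ (n + 1))⁻¹ : ℝ) : ℂ) * POLYW Y w (n + 1), ?_, ?_⟩
  · rw [Polynomial.eval_mul, Polynomial.eval_C, hK, ← Complex.ofReal_mul, inv_mul_cancel₀ (by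
      linarith), Complex.ofReal_one]
  · intro x hx
    set α : ℝ := x - θ₀ with hα
    have hwz : w.eval (exp (I * x)) = -exp (I * α) := by
      rw [hw, Polynomial.eval_mul, Polynomial.eval_C, Polynomial.eval_X, neg_mul,
        ← Complex.exp_add]
      congr 2
      rw [hα]
      push_cast
      ring
    have hXv : -1 ≤ (2 * (2 - 2 * Real.cos α) - 4 - a') / (4 - a')
        ∧ (2 * (2 - 2 * Real.cos α) - 4 - a') / (4 - a') ≤ 1 := by
      have h6 := Real.neg_one_le_cos α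
      constructor
      · rw [le_div_iff₀ h5]
        linarith
      · rw [div_le_iff₀ h5]
        linarith
    have hcos := Real.cos_arccos hXv.1 hXv.2
    set ψ := Real.arccos ((2 * (2 - 2 * Real.cos α) - 4 - a') / (4 - a')) with hψ
    have hYz : Y.eval (exp (I * x)) = w.eval (exp (I * x)) * ((Real.cos ψ : ℝ) : ℂ) := by
      rw [hcos, hYd]
      simp only [Polynomial.eval_mul, Polynomial.eval_C, Polynomial.eval_sub, Polynomial.eval_pow,
        Polynomial.eval_add, Polynomial.eval_one, hwz]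
      rw [POLY_circle α]
      push_cast
      ring
    rw [Polynomial.eval_mul, Polynomial.eval_C, POLYW_circle Y w _ ψ hYz, hwz, norm_mul, norm_mul,
      norm_pow, norm_neg, mul_comm I, Complex.norm_exp_ofReal_mul_I, one_pow, one_mul,
      Complex.norm_real, Complex.norm_real, Real.norm_eq_abs, Real.norm_eq_abs]
    have h7 : |Real.cos ((n + 1 : ℕ) * ψ)| ≤ 1 := Real.abs_cos_le_one _
    have h8 : |(1 / 2 * q ^ (n + 1))⁻¹| ≤ 1 / 2 := by
      have h9 : (1 / 2 * q ^ (n + 1))⁻¹ ≤ (2 : ℝ)⁻¹ := inv_anti₀ (by norm_num) hKpos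
      rw [abs_of_pos (inv_pos.2 (by linarith))]
      linarith
    calc |(1 / 2 * q ^ (n + 1))⁻¹| * |Real.cos ((n + 1 : ℕ) * ψ)| ≤ 1 / 2 * 1 :=
          mul_le_mul h8 h7 (abs_nonneg _) (by norm_num)
      _ = 1 / 2 := by norm_num

end Vale.Agent.P110
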