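import Mathlib

/-!
# P110: definitions used in the statement of the result
-/

namespace Vale.Agent.P110

open Finset Complex

/-- The polynomial `P_ε(e^{ix}) = ∑_{k<N} ε_k e^{ikx}` of length `N` on the unit circle. -/
noncomputable def litt (N : ℕ) (ε : ℕ → ℝ) (x : ℝ) : ℂ :=
  ∑ k ∈ range N, (ε k : ℂ) * exp (I * k * x)

/-- The normalised angular speed: writing `P(e^{ix}) = ρ(x) e^{iα(x)}` locally, this is
`α'(x) / N = Re (P'(x) / (i P(x))) / N` (derivative with respect to the angle `x`). -/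
noncomputable def speed (N : ℕ) (ε : ℕ → ℝ) (x : ℝ) : ℝ :=
  (deriv (litt N ε) x / (I * litt N ε x)).re / N

/-- `ε` is a `±1` sequence of length `N` (a real Littlewood polynomial of length `N`). -/
def IsLittlewood (N : ℕ) (ε : ℕ → ℝ) : Prop := ∀ k < N, ε k = 1 ∨ ε k = -1

/-- `| |P(z)| / √N - 1 | ≤ δ` on the whole unit circle. -/
def FlatUpTo (δ : ℝ) (N : ℕ) (ε : ℕ → ℝ) : Prop :=
  ∀ x : ℝ, |‖litt N ε x‖ / Real.sqrt N - 1| ≤ δ

/-- An ultraflat sequence of real Littlewood polynomials (lengths `N n → ∞`). -/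
def IsUltraflat (N : ℕ → ℕ) (ε : ℕ → ℕ → ℝ) : Prop :=
  Filter.Tendsto N Filter.atTop Filter.atTop ∧ (∀ n, IsLittlewood (N n) (ε n)) ∧
    ∀ δ : ℝ, 0 < δ → ∀ᶠ n in Filter.atTop, FlatUpTo δ (N n) (ε n)

end Vale.Agent.P110
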